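import Mathlib.NumberTheory.Padics.RingHoms
import Mathlib.Algebra.Module.LinearMap.Basic

/-!
# P221 (helper509): derived `p`-complete abelian groups are `ℤ_[p]`-modules

* `DC p G` : for every sequence `a` there is exactly one sequence `b` with `b i = a i + p • b (i + 1)`;
* `DC.S h a` : the sum `∑ p ^ i • a i` (i.e. `b 0`);
* `DC.eq_zero_of_div` : sets of elements which are divisible by `p` within the set are trivial;
* `DC.module h : Module ℤ_[p] G`; `DC.map_smul` : additive maps are `ℤ_[p]`-linear.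
-/

namespace Vale.Agent.P221.H509

variable (p : ℕ)

/-- derived `p`-complete groups -/
def DC (G : Type*) [AddCommGroup G] : Prop :=
  ∀ a : ℕ → G, ∃! b : ℕ → G, ∀ i, b i = a i + p • b (i + 1)

variable {p}

namespace DC

variable {G H : Type*} [AddCommGroup G] [AddCommGroup H]

/-- the solution -/
noncomputable def sol (h : DC p G) (a : ℕ → G) : ℕ → G := (h a).choose

theorem sol_spec (h : DC p G) (a : ℕ → G) (i : ℕ) : h.sol a i = a i + p • h.sol a (i + 1) :=
  (h a).choose_spec.1 i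

theorem sol_unique (h : DC p G) {a b : ℕ → G} (hb : ∀ i, b i = a i + p • b (i + 1)) :
    h.sol a = b := ((h a).choose_spec.2 b hb).symm

/-- the sum `∑ p ^ i • a i` -/
noncomputable def S (h : DC p G) (a : ℕ → G) : G := h.sol a 0

theorem S_eq (h : DC p G) {a b : ℕ → G} (hb : ∀ i, b i = a i + p • b (i + 1)) : h.S a = b 0 := by
  rw [S, h.sol_unique hb]

theorem S_succ (h : DC p G) (a : ℕ → G) : h.S a = a 0 + p • h.S (fun i => a (i + 1)) := by
  have h1 : h.S (fun i => a (i + 1)) = h.sol a 1 :=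
    h.S_eq (a := fun i => a (i + 1)) (b := fun i => h.sol a (i + 1)) fun i => h.sol_spec a (i + 1)
  rw [h1]
  exact h.sol_spec a 0

/-- **Sets of infinitely divisible elements are trivial.** -/
theorem eq_zero_of_div (h : DC p G) (R : G → Prop) (hR : ∀ x, R x → ∃ y, R y ∧ x = p • y)
    (x : G) (hx : R x) : x = 0 := by
  choose f hf1 hf2 using hR
  let b : ℕ → {x // R x} := fun n => Nat.rec ⟨x, hx⟩ (fun _ y => ⟨f y.1 y.2, hf1 y.1 y.2⟩) n
  have h1 : ∀ i, (b i).1 = (fun _ => (0 : G)) i + p • (b (i + 1)).1 := fun i => by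
    rw [zero_add]
    exact hf2 (b i).1 (b i).2
  have h2 := h.sol_unique (a := fun _ => (0 : G)) (b := fun i => (b i).1) h1
  have h3 := h.sol_unique (a := fun _ => (0 : G)) (b := fun _ => 0) fun i => by simp
  have h4 : (fun i => (b i).1) = fun _ => (0 : G) := h2.symm.trans h3
  exact congrFun h4 0

/-- Divisible groups which are derived complete are trivial. -/
theorem eq_zero_of_divisible (h : DC p G) (hG : ∀ x : G, ∃ y, x = p • y) (x : G) : x = 0 :=
  h.eq_zero_of_div (fun _ => True) (fun x _ => by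
    obtain ⟨y, hy⟩ := hG x
    exact ⟨y, trivial, hy⟩) x trivial

/-! ### Digits -/

section digits

variable [hp : Fact p.Prime]

theorem exists_tl (c : ℤ_[p]) : ∃ c' : ℤ_[p], c = ((PadicInt.toZMod c).val : ℤ) + p * c' := by
  have h1 : c - ((PadicInt.toZMod c).val : ℤ_[p]) ∈ RingHom.ker (PadicInt.toZMod (p := p)) := by
    rw [RingHom.mem_ker, map_sub, map_natCast, ZMod.natCast_val, ZMod.cast_id, sub_self]
  rw [PadicInt.ker_toZMod, PadicInt.maximalIdeal_eq_span_p, Ideal.mem_span_singleton] at h1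
  obtain ⟨c', hc'⟩ := h1
  refine ⟨c', ?_⟩
  rw [← hc']
  push_cast
  ring

/-- the digit -/
noncomputable def dg (c : ℤ_[p]) : ℤ := ((PadicInt.toZMod c).val : ℤ)

/-- the tail -/
noncomputable def tl (c : ℤ_[p]) : ℤ_[p] := (exists_tl c).choose

theorem eq_dg_tl (c : ℤ_[p]) : c = (dg c : ℤ_[p]) + p * tl c := (exists_tl c).choose_spec

theorem p_ne_zero' : (p : ℤ_[p]) ≠ 0 := by
  exact_mod_cast hp.out.ne_zero

theorem exists_of_eq {z z' : ℤ} {c c' : ℤ_[p]} (h : (z : ℤ_[p]) + p * c = z' + p * c') :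
    ∃ e : ℤ, z' = z + p * e ∧ c = c' + e := by
  have h1 : (p : ℤ_[p]) ∣ ((z' - z : ℤ) : ℤ_[p]) := ⟨c - c', by
    push_cast
    linear_combination -h⟩
  have h2 : (p : ℤ) ∣ z' - z := by
    have h3 := PadicInt.norm_int_le_pow_iff_dvd (p := p) (k := z' - z) (n := 1)
    rw [pow_one] at h3
    have h4 := (PadicInt.norm_le_pow_iff_mem_span_pow (p := p) ((z' - z : ℤ) : ℤ_[p]) 1)
    rw [pow_one, Ideal.mem_span_singleton] at h4
    exact_mod_cast h3.1 (h4.2 h1)
  obtain ⟨e, he⟩ := h2
  refine ⟨e, by omega, ?_⟩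
  apply mul_left_cancel₀ (p_ne_zero' (p := p))
  have h5 : (z' : ℤ_[p]) = z + p * e := by
    have : z' = z + p * e := by omega
    rw [this]
    push_cast
    ring
  rw [h5] at h
  linear_combination h

variable (h : DC p G)

/-- the action of `ℤ_[p]` -/
noncomputable def sm (c : ℤ_[p]) (g : G) : G := h.S fun i => dg (tl^[i] c) • g

theorem sm_dg (c : ℤ_[p]) (g : G) : h.sm c g = dg c • g + p • h.sm (tl c) g := by
  rw [sm, h.S_succ]
  rfl

theorem sm_add_int (g : G) (c : ℤ_[p]) (e : ℤ) : h.sm (c + e) g = h.sm c g + e • g := by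
  have key := h.eq_zero_of_div (fun x => ∃ (c : ℤ_[p]) (e : ℤ), x = h.sm (c + e) g - h.sm c g - e • g)
    (by
      rintro _ ⟨c, e, rfl⟩
      have h1 := eq_dg_tl (c + (e : ℤ_[p]))
      have h2 := eq_dg_tl c
      obtain ⟨e', h3, h4⟩ := exists_of_eq (p := p) (z := dg (c + (e : ℤ_[p]))) (z' := dg c + e)
        (c := tl (c + (e : ℤ_[p]))) (c' := tl c) (by
          rw [← h1]
          push_cast
          linear_combination h2)
      refine ⟨_, ⟨tl c, e', rfl⟩, ?_⟩
      rw [h.sm_dg (c + (e : ℤ_[p])), h.sm_dg c, h4]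
      have h5 : e • g = (dg (c + (e : ℤ_[p])) + p * e' - dg c) • g := by
        congr 1
        omega
      rw [h5, smul_sub, smul_sub, sub_smul, add_smul, mul_smul, natCast_zsmul]
      abel)
  have h0 := key _ ⟨c, e, rfl⟩
  rw [sub_sub, sub_eq_zero] at h0
  exact h0

theorem sm_eq {c c' : ℤ_[p]} {z : ℤ} (hc : c = z + p * c') (g : G) :
    h.sm c g = z • g + p • h.sm c' g := by
  obtain ⟨e, h3, h4⟩ := exists_of_eq (p := p) (z := dg c) (z' := z) (c := tl c) (c' := c') (by
    rw [← eq_dg_tl c]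
    exact hc)
  rw [h.sm_dg, h4, h.sm_add_int, h3, add_smul, mul_smul, natCast_zsmul, smul_add]
  abel

theorem sm_zero_left (g : G) : h.sm 0 g = 0 :=
  h.eq_zero_of_div (fun x => x = h.sm 0 g) (by
    rintro _ rfl
    refine ⟨_, rfl, ?_⟩
    conv_lhs => rw [h.sm_eq (c := 0) (c' := 0) (z := 0) (by simp)]
    rw [zero_smul, zero_add]) _ rfl

theorem sm_int (z : ℤ) (g : G) : h.sm z g = z • g := by
  rw [h.sm_eq (c := (z : ℤ_[p])) (c' := 0) (z := z) (by simp), h.sm_zero_left, smul_zero, add_zero]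

theorem sm_add_left (c c' : ℤ_[p]) (g : G) : h.sm (c + c') g = h.sm c g + h.sm c' g := by
  have key := h.eq_zero_of_div
    (fun x => ∃ c c' : ℤ_[p], x = h.sm (c + c') g - h.sm c g - h.sm c' g) (by
      rintro _ ⟨c, c', rfl⟩
      refine ⟨_, ⟨tl c, tl c', rfl⟩, ?_⟩
      have h1 := eq_dg_tl c
      have h2 := eq_dg_tl c'
      have h3 : c + c' = ((dg c + dg c' : ℤ) : ℤ_[p]) + p * (tl c + tl c') := by
        push_cast
        linear_combination h1 + h2
      rw [h.sm_eq h3, h.sm_dg c, h.sm_dg c', smul_sub, smul_sub, add_smul]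
      abel)
  have h0 := key _ ⟨c, c', rfl⟩
  rw [sub_sub, sub_eq_zero] at h0
  exact h0

theorem sm_add_right (c : ℤ_[p]) (g g' : G) : h.sm c (g + g') = h.sm c g + h.sm c g' := by
  have key := h.eq_zero_of_div
    (fun x => ∃ c : ℤ_[p], x = h.sm c (g + g') - h.sm c g - h.sm c g') (by
      rintro _ ⟨c, rfl⟩
      refine ⟨_, ⟨tl c, rfl⟩, ?_⟩
      rw [h.sm_dg c, h.sm_dg c, h.sm_dg c, smul_sub, smul_sub, smul_add]
      abel)
  have h0 := key _ ⟨c, rfl⟩
  rw [sub_sub, sub_eq_zero] at h0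
  exact h0

theorem sm_p_mul (c : ℤ_[p]) (g : G) : h.sm (p * c) g = p • h.sm c g := by
  rw [h.sm_eq (c := p * c) (c' := c) (z := 0) (by simp), zero_smul, zero_add]

/-- scalar multiplication by integers, as an additive map in the scalar -/
theorem sm_zsmul_left (z : ℤ) (c : ℤ_[p]) (g : G) : h.sm (z * c) g = z • h.sm c g := by
  have h1 := map_zsmul (AddMonoidHom.mk' (fun c => h.sm c g) fun c c' => h.sm_add_left c c' g) z c
  rw [zsmul_eq_mul] at h1
  exact h1

theorem sm_mul (c c' : ℤ_[p]) (g : G) : h.sm (c * c') g = h.sm c (h.sm c' g) := by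
  have key := h.eq_zero_of_div
    (fun x => ∃ c : ℤ_[p], x = h.sm (c * c') g - h.sm c (h.sm c' g)) (by
      rintro _ ⟨c, rfl⟩
      refine ⟨_, ⟨tl c, rfl⟩, ?_⟩
      have h1 := eq_dg_tl c
      have h3 : c * c' = dg c * c' + p * (tl c * c') := by
        linear_combination c' * h1
      rw [h3, h.sm_add_left, h.sm_zsmul_left, h.sm_p_mul, h.sm_dg c, smul_sub]
      abel)
  have h0 := key _ ⟨c, rfl⟩
  rw [sub_eq_zero] at h0
  exact h0

/-- **The `ℤ_[p]`-module structure.** -/
@[instance_reducible]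
noncomputable def module : Module ℤ_[p] G where
  smul := h.sm
  one_smul g := by
    have := h.sm_int 1 g
    rw [Int.cast_one, one_smul] at this
    exact this
  mul_smul c c' g := h.sm_mul c c' g
  smul_zero c := by
    have h1 := map_zero (AddMonoidHom.mk' (fun g => h.sm c g) fun g g' => h.sm_add_right c g g')
    exact h1
  smul_add c g g' := h.sm_add_right c g g'
  add_smul c c' g := h.sm_add_left c c' g
  zero_smul g := h.sm_zero_left g

/-- Additive maps are linear. -/
theorem map_sm (h' : DC p H) (f : G →+ H) (c : ℤ_[p]) (g : G) : f (h.sm c g) = h'.sm c (f g) := by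
  have key := h'.eq_zero_of_div
    (fun x => ∃ c : ℤ_[p], x = f (h.sm c g) - h'.sm c (f g)) (by
      rintro _ ⟨c, rfl⟩
      refine ⟨_, ⟨tl c, rfl⟩, ?_⟩
      rw [h.sm_dg c, h'.sm_dg c, map_add, map_zsmul, map_nsmul, smul_sub]
      abel)
  have h0 := key _ ⟨c, rfl⟩
  rw [sub_eq_zero] at h0
  exact h0

end digits

end DC

end Vale.Agent.P221.H509
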