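import Vale.Agent.P221.H509.DC
import Vale.Agent.P221.H395.Comp2

/-!
# P221 (helper509): the groups `W ⟶ Y`, `Y` `p`-complete, are derived `p`-complete
-/

open CategoryTheory MonoidalCategory Limits Pretriangulated
open Vale.Agent.P251.T Vale.Agent.P251.S

set_option linter.unusedSectionVars false

universe v u

namespace Vale.Agent.P221.H509

variable {T : Type u} [Category.{v} T] [Preadditive T] [HasZeroObject T]
    [HasShift T ℤ] [∀ n : ℤ, (shiftFunctor T n).Additive] [Pretriangulated T]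
    [MonoidalCategory T] [SymmetricCategory T] [TensorTriangulated T]
    [MonoidalClosed T] [HasCoproducts.{0} T]
    {p : ℕ} {C : T} {i : 𝟙_ T ⟶ C} {δ : C ⟶ (𝟙_ T)⟦(1 : ℤ)⟧}
    (hC : Triangle.mk ((p : ℤ) • 𝟙 (𝟙_ T)) i δ ∈ distTriang T)

include hC

/-- **Hom groups into `p`-complete objects are derived `p`-complete.** -/
theorem dc_hom {Y : T} (hY : H395.PComplete p Y) (W : T) : DC p (W ⟶ Y) := by
  intro a
  obtain ⟨U⟩ := exists_tel (X := fun _ : ℕ => W) (fun _ => (p : ℤ) • 𝟙 W)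
  have h1 : IsIso ((p : ℤ) • 𝟙 (U.obj⟦(-1 : ℤ)⟧)) :=
    H395.isIso_p_map (H395.isIso_p_tel hC U) (shiftFunctor T (-1 : ℤ))
  obtain ⟨g, hg⟩ : ∃ g : (∐ fun _ : ℕ => W) ⟶ Y,
      Sigma.desc a = sigmaSub (X := fun _ : ℕ => W) (fun _ => (p : ℤ) • 𝟙 W) ≫ g :=
    Triangle.yoneda_exact₂ _ (inv_rot_of_distTriang _ U.dist) (Sigma.desc a)
      (hY _ h1 _)
  have hp : ∀ x : W ⟶ Y, ((p : ℤ) • 𝟙 W) ≫ x = p • x := fun x => by
    rw [Preadditive.zsmul_comp, Category.id_comp, natCast_zsmul]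
  have h2 : ∀ n, Sigma.ι (fun _ : ℕ => W) n ≫ g =
      a n + p • (Sigma.ι (fun _ : ℕ => W) (n + 1) ≫ g) := by
    intro n
    have h3 := congrArg (fun z => Sigma.ι (fun _ : ℕ => W) n ≫ z) hg
    simp only [Sigma.ι_desc, ι_sigmaSub_assoc, Preadditive.sub_comp, Category.assoc, hp] at h3
    rw [h3, sub_add_cancel]
  refine ⟨fun n => Sigma.ι (fun _ : ℕ => W) n ≫ g, h2, ?_⟩
  intro b hb
  funext n
  have h4 : ∀ m, (fun n => b n - Sigma.ι (fun _ : ℕ => W) n ≫ g) m =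
      (p : ℤ) • (fun n => b n - Sigma.ι (fun _ : ℕ => W) n ≫ g) (m + 1) := by
    intro m
    change b m - Sigma.ι (fun _ : ℕ => W) m ≫ g =
      (p : ℤ) • (b (m + 1) - Sigma.ι (fun _ : ℕ => W) (m + 1) ≫ g)
    rw [hb m, h2 m, natCast_zsmul, smul_sub]
    abel
  exact sub_eq_zero.1 (hY.eq_zero_of_compat hC _ h4 n)

end Vale.Agent.P221.H509
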