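import Vale.Agent.P221.H509.Final

/-!
# P221 (helper509): the theorem on fp-spectra
-/

set_option linter.unusedSectionVars false

noncomputable section

namespace Vale.Agent.P221.H509

open Vale.Agent.P251 Vale.Agent.P251.S Vale.Agent.P251.T Vale.Agent.P251.M Vale.Agent.P251.F
  Vale.Agent.P251.I Vale.Agent.P257.H702 Vale.Agent.P257.H80
  Vale.Agent.P251.St Vale.Agent.P251.St.SHCat Vale.Agent.P257.St Vale.Agent.P221.St

variable {T : SHCat} {S : Susp T} {p n : ℕ}

/-- **fp-spectra of fp-type at most `n`** -/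
theorem thick_of_isStandardForm_of (hp : p.Prime)
    (hT : ∀ B X : T.C, IsForm S p n B → IsBPFinite S p n X → Thick B X) {B X Y : T.C}
    (hB : IsStandardForm S p n B) (hX : IsFpType S p n X) (hXY : Thick X Y)
    (hYX : Thick Y X) (hM : IsOrModule S Y) : Thick B X := by
  have : Fact p.Prime := ⟨hp⟩
  obtain ⟨D, hD, hA, ⟨U⟩⟩ := H924.exists_mu S.toSpaceFunctor (M.lineIso S.toSpaceFunctor)
  have hB' : IsForm S p n B := H924.isForm_of_isStandardForm hD hA U hB
  exact thick_of_fpType' (fun Y hY => hT B Y hB' hY) hp hX hXY hYX hM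

end Vale.Agent.P221.H509
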