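import Vale.Agent.P221.St.FpType
import Vale.Agent.P221.H521.ThickTen
import Vale.Agent.P221.H395.Comp
import Mathlib.GroupTheory.Index

/-!
# P221 (helper509): the fp-spectra of fp-type at most `n` are closed under finite spectra

* `pc_of_thick`, `bb_of_thick`, `tf_of_thick` : `PComplete`, `BoundedBelow`, `TotallyFinite` are
  inherited by the objects of `Thick X`;
* `isFpType_ten` : `X ⊗ F` is of fp-type at most `n` if `X` is and `F` is finite.
-/

open CategoryTheory MonoidalCategory Limits Pretriangulated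

set_option linter.unusedSectionVars false

namespace Vale.Agent.P221.H509

open Vale.Agent.P251.St Vale.Agent.P251.St.SHCat Vale.Agent.P257.St Vale.Agent.P221.St
open Vale.Agent.P221.H521 (thick_of_iso thick_map)

variable {T : SHCat} {S : Susp T} {p n : ℕ}

theorem pc_of_thick {X Y : T.C} (hX : St.PComplete p X) (h : Thick X Y) : St.PComplete p Y := by
  induction h with
  | base => exact hX
  | zero h => exact H395.PComplete.of_isZero ((IsZero.iff_id_eq_zero _).2 h)
  | susp k _ ih => exact H395.PComplete.shift ih k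
  | cof hd _ _ h1 h2 => exact H395.PComplete.ext₃ _ hd h1 h2
  | retract i r hir _ ih => exact H395.PComplete.of_retract ih i r hir

/-- maps from `S^k` to `X⟦m⟧` -/
theorem homShift (X : T.C) (k m : ℤ) : Nonempty (((𝟙_ T.C)⟦k⟧ ⟶ X⟦m⟧) ≃+ ((𝟙_ T.C)⟦k - m⟧ ⟶ X)) := by
  let e : (𝟙_ T.C)⟦k⟧ ≅ ((𝟙_ T.C)⟦k - m⟧)⟦m⟧ :=
    (shiftFunctorAdd' T.C (k - m) m k (by omega)).app (𝟙_ T.C)
  refine ⟨AddEquiv.symm
    { toFun := fun f => e.hom ≫ f⟦m⟧'
      invFun := fun g => (shiftFunctor T.C m).preimage (e.inv ≫ g)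
      left_inv := fun f => by simp
      right_inv := fun g => by simp
      map_add' := fun f g => by rw [Functor.map_add, Preadditive.comp_add] }⟩

theorem bb_of_thick {X Y : T.C} (hX : BoundedBelow X) (h : Thick X Y) : BoundedBelow Y := by
  induction h with
  | base => exact hX
  | zero h =>
    refine ⟨0, fun k _ f => ?_⟩
    have h1 : f ≫ 𝟙 _ = f ≫ 0 := congrArg (fun t => f ≫ t) h
    rwa [Category.comp_id, comp_zero] at h1
  | @susp m Y _ ih =>
    obtain ⟨N, hN⟩ := ih
    refine ⟨N + m, fun k hk f => ?_⟩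
    obtain ⟨e⟩ := homShift Y k m
    exact e.injective ((hN (k - m) (by omega) _).trans (map_zero e).symm)
  | @cof A B C f g h hd _ _ h1 h2 =>
    obtain ⟨N₁, hN₁⟩ := h1
    obtain ⟨N₂, hN₂⟩ := h2
    refine ⟨min (N₁ + 1) N₂, fun k hk u => ?_⟩
    have h3 : u ≫ h = 0 := by
      obtain ⟨e⟩ := homShift A k 1
      exact e.injective ((hN₁ (k - 1) (by omega) _).trans (map_zero e).symm)
    obtain ⟨v, hv⟩ := Triangle.coyoneda_exact₃ _ hd u h3
    rw [hv, hN₂ k (by omega) v]
    exact zero_comp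
  | @retract A B i r hir _ ih =>
    obtain ⟨N, hN⟩ := ih
    refine ⟨N, fun k hk u => ?_⟩
    have h1 : (u ≫ i) ≫ r = u := by
      rw [Category.assoc]
      exact (congrArg (fun t => u ≫ t) hir).trans (Category.comp_id _)
    rw [← h1, hN k hk (u ≫ i), zero_comp]

theorem tf_of_thick' {X Y : T.C} (hX : TotallyFinite X) (h : Thick X Y) : TotallyFinite Y := by
  induction h with
  | base => exact hX
  | @zero Y h =>
    have h0 : ∀ (k : ℤ) (f : SHCat.Hom (sphere T k) Y), f = 0 := fun k f => by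
      have h1 : f ≫ 𝟙 _ = f ≫ 0 := congrArg (fun t => f ≫ t) h
      rwa [Category.comp_id, comp_zero] at h1
    refine ⟨fun k => ?_, 0, fun k _ => h0 k⟩
    have : Subsingleton (SHCat.Hom (sphere T k) Y) := ⟨fun a b => (h0 k a).trans (h0 k b).symm⟩
    infer_instance
  | @susp m Y _ ih =>
    obtain ⟨hf, N, hN⟩ := ih
    refine ⟨fun k => ?_, N + |m|, fun k hk f => ?_⟩
    · obtain ⟨e⟩ := homShift Y k m
      have := hf (k - m)
      exact Finite.of_equiv _ e.symm.toEquiv
    · obtain ⟨e⟩ := homShift Y k m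
      have h1 : N < |k - m| := by
        have := abs_sub_abs_le_abs_sub k m
        omega
      exact e.injective ((hN (k - m) h1 _).trans (map_zero e).symm)
  | @cof A B C f g h hd _ _ h1 h2 =>
    obtain ⟨hf₁, N₁, hN₁⟩ := h1
    obtain ⟨hf₂, N₂, hN₂⟩ := h2
    refine ⟨fun k => ?_, max (N₁ + 1) N₂, fun k hk u => ?_⟩
    · obtain ⟨e⟩ := homShift A k 1
      have i1 : Finite ((𝟙_ T.C)⟦k⟧ ⟶ A⟦(1 : ℤ)⟧) := by
        have := hf₁ (k - 1)
        exact Finite.of_equiv _ e.symm.toEquiv
      have i2 : Finite ((𝟙_ T.C)⟦k⟧ ⟶ B) := hf₂ k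
      let F : ((𝟙_ T.C)⟦k⟧ ⟶ C) →+ ((𝟙_ T.C)⟦k⟧ ⟶ A⟦(1 : ℤ)⟧) :=
        { toFun := fun u => u ≫ h
          map_zero' := zero_comp
          map_add' := fun _ _ => Preadditive.add_comp .. }
      let G : ((𝟙_ T.C)⟦k⟧ ⟶ B) →+ ((𝟙_ T.C)⟦k⟧ ⟶ C) :=
        { toFun := fun u => u ≫ g
          map_zero' := zero_comp
          map_add' := fun _ _ => Preadditive.add_comp .. }
      have hker : Finite F.ker := by
        have h3 : ∀ x : F.ker, ∃ y, G y = x := fun x => by
          obtain ⟨v, hv⟩ := Triangle.coyoneda_exact₃ _ hd x.1 x.2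
          exact ⟨v, hv.symm⟩
        choose y hy using h3
        exact Finite.of_injective y fun a b hab => Subtype.ext ((hy a).symm.trans (by rw [hab, hy]))
      have hran : Finite F.range := inferInstance
      exact Finite.of_equiv _ (AddSubgroup.addGroupEquivQuotientProdAddSubgroup
        (s := F.ker)).symm
    · have h3 : u ≫ h = 0 := by
        obtain ⟨e⟩ := homShift A k 1
        have h4 : N₁ < |k - 1| := by
          have := abs_sub_abs_le_abs_sub k 1
          rw [abs_one] at this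
          omega
        exact e.injective ((hN₁ (k - 1) h4 _).trans (map_zero e).symm)
      obtain ⟨v, hv⟩ := Triangle.coyoneda_exact₃ _ hd u h3
      rw [hv, hN₂ k (by omega) v]
      exact zero_comp
  | @retract A B i r hir _ ih =>
    obtain ⟨hf, N, hN⟩ := ih
    have h1 : ∀ (k : ℤ) (u : SHCat.Hom (sphere T k) A), (u ≫ i) ≫ r = u := fun k u => by
      rw [Category.assoc]
      exact (congrArg (fun t => u ≫ t) hir).trans (Category.comp_id _)
    refine ⟨fun k => ?_, N, fun k hk u => ?_⟩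
    · have := hf k
      exact Finite.of_injective (fun u : SHCat.Hom (sphere T k) A => u ≫ i) fun a b hab => by
        rw [← h1 k a, ← h1 k b]
        exact congrArg (fun t => t ≫ r) hab
    · rw [← h1 k u, hN k hk (u ≫ i), zero_comp]

/-- `X ⊗ F` is built from `X` if `F` is finite -/
theorem thick_ten_right {F : T.C} (hF : Thick T.one F) (X : T.C) : Thick X (ten X F) := by
  have h1 : Thick (X ⊗ 𝟙_ T.C) (X ⊗ F) := thick_map (tensorLeft X) hF
  exact H521.thick_trans (thick_of_iso (ρ_ X).symm Thick.base) h1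

/-- **fp-spectra of fp-type at most `n` form a thick subcategory** -/
theorem isFpType_of_thick {X Y : T.C} (h : IsFpType S p n X) (h3 : Thick X Y) :
    IsFpType S p n Y := by
  obtain ⟨h1, h2, P, o, φ, V, hP, hV, hf⟩ := h
  exact ⟨pc_of_thick h1 h3, bb_of_thick h2 h3, P, o, φ, V, hP, hV,
    tf_of_thick' hf (thick_map (tensorRight V) h3)⟩

/-- **fp-spectra of fp-type at most `n` are closed under finite spectra** -/
theorem isFpType_ten {X F : T.C} (h : IsFpType S p n X) (hF : Thick T.one F) :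
    IsFpType S p n (ten X F) := by
  obtain ⟨h1, h2, P, o, φ, V, hP, hV, hf⟩ := h
  have h3 := thick_ten_right hF X
  exact ⟨pc_of_thick h1 h3, bb_of_thick h2 h3, P, o, φ, V, hP, hV,
    tf_of_thick' hf (thick_map (tensorRight V) h3)⟩

theorem isFpOrModule_of_fpType {X : T.C} (h : IsFpType S p n X) (hX : IsOrModule S X) :
    IsFpOrModule S p n X := by
  obtain ⟨h1, h2, h3⟩ := h
  exact ⟨h1, h2, hX, h3⟩

end Vale.Agent.P221.H509
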