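import Vale.Agent.P221.H509.Fin
import Vale.Agent.P221.H606.MUSt
import Vale.Agent.P221.H395.Fp.Final

/-!
# P221 (helper509): fp-spectra from finitely generated homotopy `BP`-modules
-/

set_option linter.unusedSectionVars false

namespace Vale.Agent.P221.H509

open Vale.Agent.P251.St Vale.Agent.P251.St.SHCat Vale.Agent.P257.St Vale.Agent.P221.St

variable {T : SHCat} {S : Susp T} {p n : ℕ}

theorem isBPFinite_of_fpType (hp : p.Prime) {X F : T.C} (hX : IsFpType S p n X)
    (hF : Thick T.one F) (hM : IsOrModule S (ten X F)) : IsBPFinite S p n (ten X F) :=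
  H395.Fp.isBPFinite_of_isFpModule hp (H606.isFpModule_of_or hp
    (isFpOrModule_of_fpType (isFpType_ten hX hF) hM))

/-- fp-spectra lie in `Thick B` if all finitely generated homotopy `BP`-modules do -/
theorem thick_of_fpType {B : T.C} (hT : ∀ X : T.C, IsBPFinite S p n X → Thick B X) (hp : p.Prime)
    {X F : T.C} (hX : IsFpType S p n X) (hF : Thick T.one F) (hF' : Thick F T.one)
    (hM : IsOrModule S (ten X F)) : Thick B X :=
  H521.thick_of_ten hF' (hT _ (isBPFinite_of_fpType hp hX hF hM))

theorem isBPFinite_of_fpType' (hp : p.Prime) {X : T.C} (hX : IsFpType S p n X)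
    (hM : IsOrModule S X) : IsBPFinite S p n X :=
  H395.Fp.isBPFinite_of_isFpModule hp (H606.isFpModule_of_or hp (isFpOrModule_of_fpType hX hM))

/-- fp-spectra `X` lie in `Thick B` if `X` and an oriented module `Y` generate each other -/
theorem thick_of_fpType' {B : T.C} (hT : ∀ X : T.C, IsBPFinite S p n X → Thick B X) (hp : p.Prime)
    {X Y : T.C} (hX : IsFpType S p n X) (hXY : Thick X Y) (hYX : Thick Y X)
    (hM : IsOrModule S Y) : Thick B X :=
  H521.thick_trans (hT _ (isBPFinite_of_fpType' hp (isFpType_of_thick hX hXY) hM)) hYX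

end Vale.Agent.P221.H509
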