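import Vale.Agent.P221.H509.Op
import Vale.Agent.P221.H395.Comp2

/-!
# P221 (helper509): the final induction (forward form)

* `FData c` : a form `B` with the action of `R` on `B ⊗ C`; `FData.t`, `FData.cB` : the action
  functional on `M(B)`;
* `FIHyp` : what the induction uses (universal coefficients, detection, shifts);
* `FIHyp.mem` : bounded below `p`-complete `X` with `M(X⟦1⟧) = 0` such that `M(X)` has a finite
  filtration with quotients `M(B l)` (shifted) belong to every thick subcategory containing the `B l`.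
-/

open CategoryTheory MonoidalCategory Limits Pretriangulated MonObj
open Vale.Agent.P251.T Vale.Agent.P251.M Vale.Agent.P251.S
open Vale.Agent.P221.H174

universe u

set_option linter.unusedSectionVars false

noncomputable section

namespace Vale.Agent.P221.H509

variable {T : Type u} [Category.{0} T] [Preadditive T] [HasZeroObject T]
    [HasShift T ℤ] [∀ n : ℤ, (shiftFunctor T n).Additive] [Pretriangulated T] [IsTriangulated T]
    [MonoidalCategory T] [SymmetricCategory T] [TensorTriangulated T] [MonoidalClosed T]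
    [HasCoproducts.{0} T] [HasProducts.{0} T] [StableCat T] {p : ℕ}

/-- a form -/
structure FData (c : Ctx T p) where
  /-- the spectrum -/
  B : T
  /-- the action on `B / p` -/
  L : ModStr c.R (B ⊗ c.C)
  pN : (p : ℤ) • 𝟙 (B ⊗ c.C) = 0
  /-- the retraction -/
  r : (B ⊗ c.C) ⊗ c.C ⟶ B ⊗ c.C
  hr : rd c.i (B ⊗ c.C) ≫ r = 𝟙 (B ⊗ c.C)

variable {c : Ctx T p}

/-- the target `B / p` -/
def FData.t (F : FData c) : Tgt c := ⟨F.B ⊗ c.C, F.L, F.pN, F.r, F.hr⟩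

/-- the action functional -/
def FData.cB (F : FData c) : GM.Lin Set.univ (c.M F.B) F.t.G :=
  F.t.kap (show F.B ⟶ F.t.N from rd c.i F.B)

theorem FData.kap_rd (F : FData c) {X : T} (f : X ⟶ F.B) (i : ℤ) (x : (c.M X).A i) :
    (F.t.kap (show X ⟶ F.t.N from f ≫ rd c.i F.B)).f i x = F.cB.f i ((c.map f).f i x) := by
  have h := F.t.kap_comp f (show F.B ⟶ F.t.N from rd c.i F.B)
  exact congrArg (fun z : GM.Lin Set.univ (c.M X) F.t.G => z.f i x) h

/-- the input of the induction -/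
structure FIHyp {J : Type} (F : J → FData c) (P : Set ℕ) (q : ℕ → ℕ) : Prop where
  complete : ∀ l, H395.PComplete p (F l).B
  conn : ∀ l, ∃ m, Conn m (F l).B
  odd : ∀ (l : J) (i : ℤ) (x : (c.M ((F l).B⟦(1 : ℤ)⟧)).A i), x = 0
  det : ∀ (l : J) (i : ℤ) (y : (c.OM (F l).B).M.A i),
    (∀ (o : c.O) (j : ℤ) (h : i + c.dego o = j), (F l).cB.f j ((c.OM (F l).B).op o h y) = 0) →
      y = 0
  cover : ∀ m, m ∈ P ∨ ∃ l, m = q l
  kk : ∀ (l : J) (M : Vale.Agent.P221.OM (ZMod p) c.O c.dego) (L : List (J × ℤ)),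
    OM.Flt (fun l => c.OM (F l).B) M L → (∀ a ∈ L, 0 ≤ a.2) → GM.KK P q (F l).t.G M.M 0
  kk_shift : ∀ (l l' : J) (a : ℤ), 0 ≤ a →
    GM.KK P q (F l).t.G ((c.OM (F l').B).shift a).M 0
  kk_zero : ∀ (l : J) (M : GM (ZMod p)), (∀ i (x : M.A i), x = 0) → GM.KK P q (F l).t.G M 0
  kk_iso : ∀ (l : J) (M M' : Vale.Agent.P221.OM (ZMod p) c.O c.dego), OM.Iso M M' →
    GM.KK P q (F l).t.G M.M 0 → GM.KK P q (F l).t.G M'.M 0
  uct : ∀ (l : J) (X : T), (∀ j : ℤ, 1 ≤ j → GM.KK P q (F l).t.G (c.M (X⟦j⟧)) 0) →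
    (F l).t.KInj X ∧ (F l).t.KSurj X
  shiftM : ∀ (X : T) (a b : ℤ), b = 2 * a →
    Nonempty (OM.Iso (c.OM (X⟦b⟧)) ((c.OM X).shift a))
  zero : ∀ (X : T) (m : ℤ), Conn m X → H395.PComplete p X → (∀ i (x : (c.M X).A i), x = 0) →
    (∀ i (x : (c.M (X⟦(1 : ℤ)⟧)).A i), x = 0) → IsZero X

section aux

/-- `M(X)` for isomorphic objects -/
def isoOM {X Y : T} (e : X ≅ Y) : OM.Iso (c.OM X) (c.OM Y) where
  f := c.omap e.hom
  bij i := by
    constructor
    · intro x y h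
      have h1 : (c.map e.inv).f i ((c.map e.hom).f i x) =
          (c.map e.inv).f i ((c.map e.hom).f i y) := congrArg _ h
      rwa [← c.map_comp, ← c.map_comp, Iso.hom_inv_id, c.map_id, c.map_id] at h1
    · intro y
      refine ⟨(c.map e.inv).f i y, ?_⟩
      change (c.map e.hom).f i ((c.map e.inv).f i y) = y
      rw [← c.map_comp, Iso.inv_hom_id, c.map_id]

theorem zero_of_iso {M N : Vale.Agent.P221.OM (ZMod p) c.O c.dego} (e : OM.Iso M N)
    (h : ∀ i (x : M.M.A i), x = 0) (i : ℤ) (x : N.M.A i) : x = 0 := by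
  rw [← e.ap_symm x, h _ (e.symm.f.ap x)]
  exact map_zero (e.f.f.f i)

theorem zero_shift {M : Vale.Agent.P221.OM (ZMod p) c.O c.dego}
    (h : ∀ i (x : M.M.A i), x = 0) (a i : ℤ) (x : (M.shift a).M.A i) : x = 0 := h (i - a) x

theorem exists_min {J : Type} : ∀ (L : List (J × ℤ)), L ≠ [] →
    ∃ (L₁ : List (J × ℤ)) (l : J) (a : ℤ) (L₂ : List (J × ℤ)), L = L₁ ++ (l, a) :: L₂ ∧
      ∀ b ∈ L, a ≤ b.2
  | [], h => absurd rfl h
  | [(l, a)], _ => ⟨[], l, a, [], rfl, by simp⟩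
  | (l, a) :: c :: L, _ => by
    obtain ⟨L₁, l', a', L₂, h1, h2⟩ := exists_min (c :: L) (by simp)
    by_cases h : a ≤ a'
    · refine ⟨[], l, a, c :: L, rfl, fun b hb => ?_⟩
      rcases List.mem_cons.1 hb with rfl | hb
      · exact le_rfl
      · exact h.trans (h2 b hb)
    · refine ⟨(l, a) :: L₁, l', a', L₂, by rw [h1]; rfl, fun b hb => ?_⟩
      rcases List.mem_cons.1 hb with rfl | hb
      · exact (not_le.1 h).le
      · exact h2 b hb

end aux

namespace FIHyp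

variable {J : Type} {F : J → FData c} {P : Set ℕ} {q : ℕ → ℕ} (H : FIHyp F P q)

include H

/-- odd shifts -/
theorem odd_shift {X : T} (h : ∀ i (x : (c.M (X⟦(1 : ℤ)⟧)).A i), x = 0) (b : ℤ) {k : ℤ}
    (hk : k = 2 * b + 1) (i : ℤ) (x : (c.M (X⟦k⟧)).A i) : x = 0 := by
  subst hk
  obtain ⟨e⟩ := H.shiftM (X⟦(1 : ℤ)⟧) b (2 * b) rfl
  let e1 : (X⟦(1 : ℤ)⟧)⟦2 * b⟧ ≅ X⟦2 * b + 1⟧ :=
    ((shiftFunctorAdd' T 1 (2 * b) (2 * b + 1) (by ring)).app X).symm
  exact zero_of_iso (isoOM e1) (zero_of_iso e.symm (zero_shift h b)) i x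

/-- The universal coefficient theorem for `X` and `X⟦-1⟧`. -/
theorem kk_all {X : T} (hodd : ∀ i (x : (c.M (X⟦(1 : ℤ)⟧)).A i), x = 0) {L : List (J × ℤ)}
    (hL : OM.Flt (fun l => c.OM (F l).B) (c.OM X) L) (h0 : ∀ a ∈ L, 0 ≤ a.2) (l : J) (j : ℤ)
    (hj : 0 ≤ j) : GM.KK P q (F l).t.G (c.M (X⟦j⟧)) 0 := by
  rcases Int.even_or_odd' j with ⟨b, rfl | rfl⟩
  · obtain ⟨e⟩ := H.shiftM X b (2 * b) rfl
    refine H.kk_iso l _ _ e.symm (H.kk l _ _ (hL.shift b) fun a ha => ?_)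
    obtain ⟨a', ha', rfl⟩ := List.mem_map.1 ha
    have := h0 a' ha'
    change 0 ≤ a'.2 + b
    omega
  · exact H.kk_zero l _ (H.odd_shift hodd b rfl)

theorem uct' {X : T} (hodd : ∀ i (x : (c.M (X⟦(1 : ℤ)⟧)).A i), x = 0) {L : List (J × ℤ)}
    (hL : OM.Flt (fun l => c.OM (F l).B) (c.OM X) L) (h0 : ∀ a ∈ L, 0 ≤ a.2) (l : J) :
    (F l).t.KSurj X ∧ (F l).t.KInj (X⟦(-1 : ℤ)⟧) := by
  refine ⟨(H.uct l X fun j hj => H.kk_all hodd hL h0 l j (by omega)).2,
    (H.uct l (X⟦(-1 : ℤ)⟧) fun j hj => ?_).1⟩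
  let e1 : X⟦j - 1⟧ ≅ (X⟦(-1 : ℤ)⟧)⟦j⟧ := (shiftFunctorAdd' T (-1) j (j - 1) (by ring)).app X
  exact H.kk_iso l _ _ (isoOM e1) (H.kk_all hodd hL h0 l (j - 1) (by omega))

/-- Maps to `(B / p)⟦1⟧` vanish. -/
theorem hom_shift_eq_zero {X : T} (hodd : ∀ i (x : (c.M (X⟦(1 : ℤ)⟧)).A i), x = 0)
    {L : List (J × ℤ)}
    (hL : OM.Flt (fun l => c.OM (F l).B) (c.OM X) L) (h0 : ∀ a ∈ L, 0 ≤ a.2) (l : J)
    (g : X ⟶ ((F l).B ⊗ c.C)⟦(1 : ℤ)⟧) : g = 0 := by
  have h1 := (H.uct' hodd hL h0 l).2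
  have h2 : ∀ i (x : (c.M (X⟦(-1 : ℤ)⟧)).A i), x = 0 := H.odd_shift hodd (-1) (by norm_num)
  let e : (((F l).B ⊗ c.C)⟦(1 : ℤ)⟧)⟦(-1 : ℤ)⟧ ≅ (F l).B ⊗ c.C :=
    (shiftFunctorCompIsoId T (1 : ℤ) (-1) (by norm_num)).app _
  have h3 : (show X⟦(-1 : ℤ)⟧ ⟶ (F l).t.N from g⟦(-1 : ℤ)⟧' ≫ e.hom) = 0 :=
    h1 _ (GM.Lin.ext fun i x => by
      rw [h2 i x, map_zero]
      rfl)
  have h4 : g⟦(-1 : ℤ)⟧' ≫ e.hom = 0 := h3
  apply (shiftFunctor T (-1 : ℤ)).map_injective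
  rw [← cancel_mono e.hom, h4, Functor.map_zero, zero_comp]

/-- **The main step.** -/
theorem step {X : T} {m : ℤ} (hX : Conn m X) (hc : H395.PComplete p X)
    (hodd : ∀ i (x : (c.M (X⟦(1 : ℤ)⟧)).A i), x = 0)
    {L₁ L₂ : List (J × ℤ)} {l : J}
    (hL : OM.Flt (fun l => c.OM (F l).B) (c.OM X) (L₁ ++ (l, 0) :: L₂))
    (h0 : ∀ a ∈ L₁ ++ (l, 0) :: L₂, 0 ≤ a.2) :
    ∃ (X' : T) (f' : X' ⟶ X) (f : X ⟶ (F l).B) (h : (F l).B ⟶ X'⟦(1 : ℤ)⟧),
      Triangle.mk f' f h ∈ distTriang T ∧ (∃ m', Conn m' X') ∧ H395.PComplete p X' ∧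
      (∀ i (x : (c.M (X'⟦(1 : ℤ)⟧)).A i), x = 0) ∧
      OM.Flt (fun l => c.OM (F l).B) (c.OM X') (L₁ ++ L₂) := by
  obtain ⟨F', inc, θ, h1, h2, h3⟩ := OM.Flt.exists_sub (P := P) (q := q) L₁ hL
  let z : OM.Iso ((c.OM (F l).B).shift 0) (c.OM (F l).B) := OM.shiftZero _ rfl
  -- the functional on the submodule
  let φ₀ : GM.Lin Set.univ F'.M (F l).t.G := (θ.f.comp z.f.f).comp (F l).cB
  obtain ⟨ψ, h4, h5⟩ := h2 (F l).t.G 0
    (fun a ha => H.kk_shift l a.1 a.2 (h0 a (List.mem_append_left _ ha))) φ₀.fn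
    (fun m => ⟨fun i _ => φ₀.com_fn (Set.mem_univ _), fun i _ => φ₀.com_fn (Set.mem_univ _)⟩)
  have h6 : ∀ m, GM.Com m ψ := fun m => by
    rcases H.cover m with hm | ⟨s, rfl⟩
    · exact (h4 0).com m hm
    · exact (h4 (s + 1)).com' s (Nat.lt_succ_self s)
  obtain ⟨hs, -⟩ := H.uct' hodd hL h0 l
  obtain ⟨f₀, hf₀⟩ := hs (GM.Lin.ofFn ψ fun m _ => h6 m)
  obtain ⟨f, hf⟩ := (H.complete l).exists_lift_mod c.dist
    (H.hom_shift_eq_zero hodd hL h0 l) (f₀ : X ⟶ (F l).B ⊗ c.C)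
  replace hf : f ≫ rd c.i (F l).B = f₀ := hf
  -- `M(f)` extends `θ`
  have h7 : ∀ i (x : F'.M.A i), (c.omap f).ap (inc.ap x) = z.f.ap (θ.ap x) := by
    intro i x
    have h8 : (c.omap f).ap (inc.ap x) - z.f.ap (θ.ap x) = 0 := by
      apply H.det l
      intro o j h
      rw [map_sub, map_sub, sub_eq_zero]
      have e1 : (c.OM (F l).B).op o h ((c.omap f).ap (inc.ap x)) =
          (c.map f).f j (inc.ap (F'.op o h x)) := by
        change (c.OM (F l).B).op o h ((c.omap f).f.f i (inc.f.f i x)) =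
          (c.omap f).f.f j (inc.f.f j (F'.op o h x))
        rw [inc.op_comm o h x, (c.omap f).op_comm o h]
      have e2 : (c.OM (F l).B).op o h (z.f.ap (θ.ap x)) = z.f.ap (θ.ap (F'.op o h x)) := by
        change (c.OM (F l).B).op o h (z.f.f.f i (θ.f.f i x)) = z.f.f.f j (θ.f.f j (F'.op o h x))
        rw [θ.op_comm o h x, z.f.op_comm o h]
      rw [e1, e2, ← (F l).kap_rd f j]
      have e3 : (show X ⟶ (F l).t.N from f ≫ rd c.i (F l).B) = f₀ := hf
      rw [e3, hf₀]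
      have e4 := congrArg (fun w : GM.Fn F'.M (F l).t.G 0 => w (GM.ix (add_zero j)) (F'.op o h x)) h5
      exact e4
    exact sub_eq_zero.1 h8
  obtain ⟨X', f', h, hd⟩ := distinguished_cocone_triangle₁ f
  obtain ⟨mB, hB⟩ := H.conn l
  have hsurj : ∀ i (y : (c.M (F l).B).A i), ∃ x, (c.map f).f i x = y := by
    intro i y
    obtain ⟨w, hw⟩ := h1 i (z.symm.f.ap y)
    refine ⟨inc.ap w, (h7 i w).trans ?_⟩
    change z.f.ap (θ.f.f i w) = y
    rw [hw]
    exact z.ap_symm y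
  have hBm : ∀ i (y : (c.M ((F l).B⟦(-1 : ℤ)⟧)).A i), y = 0 := H.odd_shift (H.odd l) (-1) (by norm_num)
  have hinj : ∀ i (x : (c.M X').A i), (c.map f').f i x = 0 → x = 0 := by
    intro i x hx
    have hd' := inv_rot_of_distTriang _ hd
    obtain ⟨y, hy⟩ := c.exact₂ hd' i x hx
    rw [← hy, hBm i y]
    exact map_zero _
  refine ⟨X', f', f, h, hd, ⟨min m (mB - 1), ?_⟩, ?_, ?_, ?_⟩
  · exact Conn.ext₁ _ hd (hX.mono (min_le_left _ _)) (hB.mono (by
      have := min_le_right m (mB - 1)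
      omega))
  · exact H395.PComplete.ext₁ _ hd hc (H.complete l)
  · intro i x
    have hd2 := rot_of_distTriang _ (rot_of_distTriang _ hd)
    obtain ⟨y, hy⟩ := c.exact₂ (rot_of_distTriang _ (rot_of_distTriang _ hd)) i x (by
      exact hodd i _)
    obtain ⟨y', hy'⟩ := hsurj i y
    rw [← hy, ← hy']
    exact c.comp_eq_zero (rot_of_distTriang _ hd) i y'
  · let g : OM.Hom (c.OM X) ((c.OM (F l).B).shift 0) := (c.omap f).comp z.symm.f
    have h9 := h3 g (fun i x => by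
      rw [OM.Hom.comp_ap, h7]
      exact z.symm_ap _)
    refine h9.ofIso (OM.Iso.symm
      { f :=
          { f :=
              { f := fun i => ((c.map f').f i).codRestrict _ fun x => by
                  rw [LinearMap.mem_ker]
                  change z.symm.f.f.f i ((c.map f).f i ((c.map f').f i x)) = 0
                  rw [c.comp_eq_zero hd, map_zero]
                comm := fun m _ i j e x => Subtype.ext ((c.omap f').act_comm m e x) }
            op_comm := fun o i j e x => Subtype.ext ((c.omap f').op_comm o e x) }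
        bij := fun i => ⟨?_, ?_⟩ })
    · intro x y hxy
      have h10 : (c.map f').f i x = (c.map f').f i y := congrArg Subtype.val hxy
      have h11 : (c.map f').f i (x - y) = 0 := by rw [map_sub, h10, sub_self]
      exact sub_eq_zero.1 (hinj i _ h11)
    · rintro ⟨x, hx⟩
      rw [LinearMap.mem_ker] at hx
      have h10 : (c.map f).f i x = 0 := by
        apply (z.symm.bij i).1
        rw [map_zero]
        exact hx
      obtain ⟨y, hy⟩ := c.exact₂ hd i x h10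
      exact ⟨y, Subtype.ext hy⟩

/-- **The final induction.** -/
theorem mem {K : T → Prop} (hz : ∀ X, IsZero X → K X) (hsh : ∀ X (k : ℤ), K X → K (X⟦k⟧))
    (hiso : ∀ X Y, (X ≅ Y) → K X → K Y)
    (hext : ∀ (X Y Z : T) (f : X ⟶ Y) (g : Y ⟶ Z) (h : Z ⟶ X⟦(1 : ℤ)⟧),
      Triangle.mk f g h ∈ distTriang T → K X → K Z → K Y)
    (hB : ∀ l, K (F l).B) :
    ∀ (n : ℕ) (L : List (J × ℤ)), L.length = n → ∀ (X : T) (m : ℤ), Conn m X →
      H395.PComplete p X → (∀ i (x : (c.M (X⟦(1 : ℤ)⟧)).A i), x = 0) →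
      OM.Flt (fun l => c.OM (F l).B) (c.OM X) L → K X
  | 0, L, hn, X, m, hX, hc, hodd, hL => by
    obtain rfl : L = [] := List.length_eq_zero_iff.1 hn
    cases hL with
    | nil h => exact hz X (H.zero X m hX hc h hodd)
  | n + 1, L, hn, X, m, hX, hc, hodd, hL => by
    obtain ⟨L₁, l, a, L₂, rfl, hmin⟩ := exists_min L (by rintro rfl; simp at hn)
    obtain ⟨e⟩ := H.shiftM X (-a) (2 * (-a)) rfl
    have h1 : OM.Flt (fun l => c.OM (F l).B) (c.OM (X⟦2 * (-a)⟧))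
        ((L₁.map fun q => (q.1, q.2 + -a)) ++ (l, 0) :: (L₂.map fun q => (q.1, q.2 + -a))) := by
      have h2 := (hL.shift (-a)).ofIso e.symm
      rw [List.map_append, List.map_cons] at h2
      rwa [add_neg_cancel] at h2
    have h0 : ∀ b ∈ ((L₁.map fun q => (q.1, q.2 + -a)) ++ (l, 0) ::
        (L₂.map fun q => (q.1, q.2 + -a))), 0 ≤ b.2 := by
      intro b hb
      rcases List.mem_append.1 hb with hb | hb
      · obtain ⟨b', hb', rfl⟩ := List.mem_map.1 hb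
        have := hmin b' (List.mem_append_left _ hb')
        change 0 ≤ b'.2 + -a
        omega
      · rcases List.mem_cons.1 hb with rfl | hb
        · exact le_rfl
        · obtain ⟨b', hb', rfl⟩ := List.mem_map.1 hb
          have := hmin b' (List.mem_append_right _ (List.mem_cons_of_mem _ hb'))
          change 0 ≤ b'.2 + -a
          omega
    have hodd' : ∀ i (x : (c.M ((X⟦2 * (-a)⟧)⟦(1 : ℤ)⟧)).A i), x = 0 := by
      let e1 : X⟦2 * (-a) + 1⟧ ≅ (X⟦2 * (-a)⟧)⟦(1 : ℤ)⟧ :=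
        (shiftFunctorAdd' T (2 * (-a)) 1 (2 * (-a) + 1) rfl).app X
      exact zero_of_iso (isoOM e1) (H.odd_shift hodd (-a) rfl)
    obtain ⟨X', f', f, h, hd, ⟨m', hm'⟩, hc', hodd'', hflt⟩ :=
      H.step (hX.shift (2 * (-a)) (m + 2 * (-a)) rfl) (hc.shift _) hodd' h1 h0
    have h3 : K X' := mem hz hsh hiso hext hB n _ (by
      simp only [List.length_append, List.length_cons, List.length_map] at hn ⊢
      omega) X' m' hm' hc' hodd'' hflt
    have h4 : K (X⟦2 * (-a)⟧) := hext _ _ _ f' f h hd h3 (hB l)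
    exact hiso _ _ ((shiftFunctorCompIsoId T (2 * (-a)) (2 * a) (by ring)).app X)
      (hsh _ (2 * a) h4)

end FIHyp

end Vale.Agent.P221.H509
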