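import Vale.Agent.P221.H509.Main
import Vale.Agent.P221.H509.Fp
import Vale.Agent.P221.T.H924.FormTop
import Vale.Agent.P221.H136.TopC
import Vale.Agent.P221.H136.Par
import Vale.Agent.P221.H903.R3
import Vale.Agent.P221.H924.Ex

/-!
# P221 (helper509): the final assembly

`thick_of_isBPFinite` : `IsForm S p n B → IsBPFinite S p n X → Thick B X`.
-/

open CategoryTheory MonoidalCategory MonObj Limits Pretriangulated

set_option linter.unusedSectionVars false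

noncomputable section

namespace Vale.Agent.P221.H509

open Vale.Agent.P251 Vale.Agent.P251.S Vale.Agent.P251.T Vale.Agent.P251.M Vale.Agent.P251.F
  Vale.Agent.P251.I EvenSpheres Vale.Agent.P257.H702 Vale.Agent.P257.H80 Vale.Agent.P251.Q
  Vale.Agent.P251.St Vale.Agent.P257.St Vale.Agent.P221.H746 Vale.Agent.P093.N0
open Vale.Agent.P221.T (BPS sV FormD SpecSrc)
open Vale.Agent.P221.H924 (BPOut kappa_comp redP kappa_polyGen xE qpi_kappa_isWH hazk)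

variable {T : SHCat} {S : Susp T} {p : ℕ} [hp : Fact p.Prime] {n : ℕ}

/-- the output of the construction of `BPS` -/
def VPhi {R Pc W : T.C} [MonObj R] [IsCommMonObj R] (b : BPS p R Pc W)
    (Φ : MvPolynomial ℕ ℤ →+* HRing (stdEven T.C) R) : Prop :=
  ∀ i, ∃ (w : ℤ) (hw : sV p (i + 1) = 2 * w) (u : (stdEven T.C).S w ⟶ R),
    b.v i = eqToHom (by rw [hw]) ≫ (stdSph w).inv ≫ u ∧
      HRing.of (stdEven T.C) R w u = Φ (MvPolynomial.X i)

section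

variable {P : RingSp T} {o : St.Oriented S P} {φ : P257.St.GHom S p P} {D : MUData T.C}

theorem exists_bpOut' (hD : MUUniv (M.lineIso S.toSpaceFunctor) D) (hA : MUAll D)
    (U : MUFam (M.lineIso S.toSpaceFunctor) D) (h : P257.St.IsBrownPeterson p o φ) :
    ∃ (b : D.R ⟶ P.obj) (_ : IsMonHom b)
      (κ : HRing (stdEven T.C) P.obj →+* MvPolynomial ℕ (ZMod p))
      (Φ : MvPolynomial ℕ ℤ →+* HRing (stdEven T.C) P.obj), BPOut D φ b κ ∧
        (∀ (m : ℕ) (x : P257.St.VPoly p m),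
          Φ x = HRing.of (stdEven T.C) P.obj m ((isoE S m).inv ≫ φ m x)) ∧
        lawOf b = (haz p).map Φ := by
  obtain ⟨b, hb, ho⟩ := U.exists_mapS o
  have hmon : IsBPMon p b := isBPMon_of_isBrownPeterson ptypOut hD U ptypIn h ho
  obtain ⟨κ, hs, hk, hl⟩ := H746.exists_kappa hD hA hmon
  obtain ⟨Φ, hφ, hΦ⟩ := ptypOut P o φ h.typ
  have hcomp : κ.comp Φ = redP p := by
    refine kappa_comp hΦ ?_
    rw [U.lawS_eq ho]
    exact hl
  refine ⟨b, hb, κ, Φ, ⟨hmon, good_bp hD hA hmon, hs, hk, hl,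
    fun n x hx hc w y => qpi_kappa_isWH hx hc hD hA hmon hl w y,
    fun x j hj => kappa_polyGen hφ hcomp hj⟩, hφ, ?_⟩
  rw [← hΦ, U.lawS_eq ho]
  rfl

theorem matches_of_vPhi {Pc W : T.C} (b : BPS p P.obj Pc W)
    {Φ : MvPolynomial ℕ ℤ →+* HRing (stdEven T.C) P.obj}
    (hφ : ∀ (m : ℕ) (x : P257.St.VPoly p m),
      Φ x = HRing.of (stdEven T.C) P.obj m ((isoE S m).inv ≫ φ m x))
    (hv : VPhi b Φ) : Matches b φ := by
  intro i
  obtain ⟨w, hw, u, h1, h2⟩ := hv i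
  have h0 : Φ (MvPolynomial.X i) = HRing.of (stdEven T.C) P.obj ((p ^ (i + 1) - 1 : ℕ) : ℤ)
      ((isoE S _).inv ≫ hazV φ (i + 1)) := hφ _ ⟨vEl p (i + 1), vEl_mem p (i + 1)⟩
  have h3 : w = ((p ^ (i + 1) - 1 : ℕ) : ℤ) := by
    have h4 : 1 ≤ p ^ (i + 1) := Nat.one_le_pow _ _ hp.out.pos
    have h5 : sV p (i + 1) = 2 * ((p : ℤ) ^ (i + 1) - 1) := rfl
    push_cast [Nat.cast_sub h4]
    omega
  have key : ∀ (k w : ℤ) (h : k = 2 * w) (h2 : w = ((p ^ (i + 1) - 1 : ℕ) : ℤ))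
      (v : (𝟙_ T.C)⟦k⟧ ⟶ P.obj) (u : (stdEven T.C).S w ⟶ P.obj),
      v = eqToHom (congrArg (fun k => (𝟙_ T.C)⟦k⟧) h) ≫ (stdSph w).inv ≫ u →
      HRing.of (stdEven T.C) P.obj w u = Φ (MvPolynomial.X i) →
      ∃ ε : (𝟙_ T.C)⟦k⟧ ≅ S.obj (Cn (p ^ (i + 1) - 1)), v = ε.hom ≫ hazV φ (i + 1) := by
    rintro _ _ rfl rfl v u hv hu
    rw [h0] at hu
    have hu' := DirectSum.of_injective (β := (stdEven T.C).Gr P.obj) _ hu
    refine ⟨(stdSph _).symm ≪≫ (isoE S _).symm, ?_⟩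
    rw [hv, hu']
    simp only [eqToHom_refl, Category.id_comp, Iso.trans_hom, Iso.symm_hom, Category.assoc]
  exact key _ _ hw h3 _ u h1 h2

end

/-- **Every `p`-complete homotopy `BP`-module whose homotopy is finitely generated over
`ℤ_p[v_1, …, v_n]` lies in the thick subcategory generated by any form of `BP⟨n⟩`.** -/
theorem thick_of_isBPFinite_of (hsrc : SpecSrc p n T.C)
    (HB : ∀ {D : MUData T.C} (_ : MUUniv (M.lineIso S.toSpaceFunctor) D) (_ : MUAll D) {R : T.C}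
      [MonObj R] [IsCommMonObj R] (b₀ : D.R ⟶ R) [IsMonHom b₀]
      (Φ : MvPolynomial ℕ ℤ →+* HRing (stdEven T.C) R), IsBPMon p b₀ →
      lawOf b₀ = (haz p).map Φ → ∃ (Pc W : T.C) (b : BPS p R Pc W), VPhi b Φ)
    {B X : T.C} (hB : P221.St.IsForm S p n B) (hX : P221.St.IsBPFinite S p n X) :
    P221.St.Thick B X := by
  obtain ⟨D, hD, hA, ⟨U⟩⟩ := H924.exists_mu S.toSpaceFunctor (M.lineIso S.toSpaceFunctor)
  obtain ⟨P, o, φ, x, a, q, hP, hx, hBc, ha, hq, hmod⟩ := hB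
  obtain ⟨b₀, _, κ, Φ, hκ, hφ, hΦ⟩ := exists_bpOut' hD hA U hP
  obtain ⟨Pc, W, b, hv⟩ := HB hD hA b₀ Φ hκ.mon hΦ
  obtain ⟨C, i, δ, hM⟩ := distinguished_cocone_triangle ((p : ℤ) • 𝟙 (𝟙_ T.C))
  obtain ⟨h1, h2⟩ := hmod C ⟨i, δ, hM⟩
  have h3 : H924.QOut n x κ ((H924.modOf ha).tensorRight C) (q ≫ H924.rdM i B) :=
    H924.qOut_of_mod hκ.good hκ.surj hκ.ker hM (H924.modOf ha) hq h1 h2
  obtain ⟨F, -, -⟩ := Vale.Agent.P221.T.H924.exists_formD b
    (Vale.Agent.P221.T.H924.vHyp_of_phi b hκ hΦ hv) (H924.modOf ha) hBc hq hκ hx hM h3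
  refine thick_of_finite hsrc hP b (H136.top_bps hD hκ.mon b) (matches_of_vPhi b hφ hv) F
    (fun S' hS' => H903.lifts_of_form F hS' (H136.par hD hκ.mon b)) hX

end Vale.Agent.P221.H509
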