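import Vale.Agent.P221.H924.Std

/-!
# P221 (helper509): the Brown-Peterson spectra of the statement layer are isomorphic

* `exists_bp_iso` : for two Brown-Peterson spectra `P`, `P'` an isomorphism of ring spectra
  `f : P ≅ P'` with `φ x ≫ f = φ' x`;
* `modIso` : transport of module structures; `isFG_iso` : transport of `IsFG`.
-/

open CategoryTheory MonoidalCategory MonObj Limits Pretriangulated

set_option linter.unusedSectionVars false

noncomputable section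

namespace Vale.Agent.P221.H509

open Vale.Agent.P251 Vale.Agent.P251.S Vale.Agent.P251.T Vale.Agent.P251.M Vale.Agent.P251.F
  Vale.Agent.P251.I EvenSpheres Vale.Agent.P257.H702 Vale.Agent.P257.H80 Vale.Agent.P251.Q
  Vale.Agent.P251.St Vale.Agent.P257.St Vale.Agent.P221.H746 Vale.Agent.P093.N0

variable {T : SHCat} {S : Susp T} {p : ℕ} [hp : Fact p.Prime]
  {P P' : RingSp T} {o : St.Oriented S P} {o' : St.Oriented S P'}
  {φ : P257.St.GHom S p P} {φ' : P257.St.GHom S p P'} {D : MUData T.C}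

/-- ring maps which carry the orientation carry the Hazewinkel generators -/
theorem carries_phi (U : MUFam (M.lineIso S.toSpaceFunctor) D) (h : P257.St.IsPTyp p o φ)
    (h' : P257.St.IsPTyp p o' φ') (f : P.obj ⟶ P'.obj) [IsMonHom f]
    (hf : P257.St.Carries f o o') (m : ℕ) (x : P257.St.VPoly p m) : φ m x ≫ f = φ' m x := by
  obtain ⟨b, hb, ho⟩ := U.exists_mapS o
  obtain ⟨b', hb', ho'⟩ := U.exists_mapS o'
  have hbf : b ≫ f = b' := (U.orMap_iff ho ho' f).1 hf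
  obtain ⟨Φ, hφ, hΦ⟩ := ptypOut P o φ h
  obtain ⟨Φ', hφ', hΦ'⟩ := ptypOut P' o' φ' h'
  have h1 : lawOf b = (haz p).map Φ := by rw [← hΦ, U.lawS_eq ho]; rfl
  have h1' : lawOf b' = (haz p).map Φ' := by rw [← hΦ', U.lawS_eq ho']; rfl
  have h2 : (HRing.map (E := stdEven T.C) f).comp Φ = Φ' := by
    apply haz_map_injective p (pLoc_of_locO (K := P'.obj) h'.isLocal)
    rw [← Law.map_map, ← h1, ← lawOf_comp, ← h1']
    exact lawOf_congr hbf
  have h3 := DFunLike.congr_fun h2 (x : MvPolynomial ℕ ℤ)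
  rw [RingHom.comp_apply, hφ, hφ', HRing.map_of] at h3
  have h4 := DirectSum.of_injective (β := (stdEven T.C).Gr P'.obj) _ h3
  rw [Category.assoc, cancel_epi] at h4
  exact h4

/-- **Two Brown-Peterson spectra are isomorphic, compatibly with the Hazewinkel generators.** -/
theorem exists_bp_iso (h : P257.St.IsBrownPeterson p o φ) (h' : P257.St.IsBrownPeterson p o' φ') :
    ∃ f : P.obj ≅ P'.obj, IsMonHom f.hom ∧ IsMonHom f.inv ∧
      ∀ (m : ℕ) (x : P257.St.VPoly p m), φ m x ≫ f.hom = φ' m x := by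
  obtain ⟨D, hD, ⟨U⟩, -⟩ := P257.H80.exists_muAll S.toSpaceFunctor (P251.M.lineIso S.toSpaceFunctor)
  obtain ⟨b, hb, ho⟩ := U.exists_mapS o
  obtain ⟨b', hb', ho'⟩ := U.exists_mapS o'
  obtain ⟨f, ⟨hf1, hf2⟩, -⟩ := h.univ P' o' φ' h'.typ
  obtain ⟨g, ⟨hg1, hg2⟩, -⟩ := h'.univ P o φ h.typ
  have hf := (isRingMap_iff f).1 hf1
  have hg := (isRingMap_iff g).1 hg1
  have hbf : b ≫ f = b' := (U.orMap_iff ho ho' f).1 hf2
  have hbg : b' ≫ g = b := (U.orMap_iff ho' ho g).1 hg2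
  have hfg : f ≫ g = 𝟙 P.obj := by
    refine (h.univ P o φ h.typ).unique ⟨(isRingMap_iff _).2 inferInstance, ?_⟩
      ⟨(isRingMap_iff _).2 inferInstance, ?_⟩
    · exact (U.orMap_iff ho ho (f ≫ g)).2 (by rw [← Category.assoc, hbf]; exact hbg)
    · exact (U.orMap_iff ho ho (𝟙 P.obj)).2 (Category.comp_id _)
  have hgf : g ≫ f = 𝟙 P'.obj := by
    refine (h'.univ P' o' φ' h'.typ).unique ⟨(isRingMap_iff _).2 inferInstance, ?_⟩
      ⟨(isRingMap_iff _).2 inferInstance, ?_⟩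
    · exact (U.orMap_iff ho' ho' (g ≫ f)).2 (by rw [← Category.assoc, hbg]; exact hbf)
    · exact (U.orMap_iff ho' ho' (𝟙 P'.obj)).2 (Category.comp_id _)
  exact ⟨⟨f, g, hfg, hgf⟩, hf, hg, fun m x => carries_phi U h.typ h'.typ f hf2 m x⟩

/-- transport of homotopy modules along ring maps -/
theorem isAct_comp {X : T.C} {a : SHCat.Hom (SHCat.ten P.obj X) X} (ha : P221.St.IsAct a)
    (g : P'.obj ⟶ P.obj) [IsMonHom g] : P221.St.IsAct (R := P') ((g ▷ X) ≫ a) := by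
  constructor
  · change (λ_ X).inv ≫ (η[P'.obj] ▷ X) ≫ (g ▷ X) ≫ a = 𝟙 X
    rw [← comp_whiskerRight_assoc, IsMonHom.one_hom]
    exact ha.1
  · change (μ[P'.obj] ▷ X) ≫ (g ▷ X) ≫ a =
      (α_ P'.obj P'.obj X).hom ≫ (P'.obj ◁ ((g ▷ X) ≫ a)) ≫ (g ▷ X) ≫ a
    have h2 : (μ[P.obj] ▷ X) ≫ a = (α_ P.obj P.obj X).hom ≫ (P.obj ◁ a) ≫ a := ha.2
    rw [← comp_whiskerRight_assoc, IsMonHom.mul_hom, comp_whiskerRight_assoc, h2,
      MonoidalCategory.tensorHom_def, comp_whiskerRight_assoc]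
    simp only [whisker_assoc, MonoidalCategory.whiskerLeft_comp, Category.assoc,
      Iso.inv_hom_id_assoc]
    rw [associator_naturality_left_assoc, ← whisker_exchange_assoc, ← whisker_exchange_assoc]

/-- transport of finite generation -/
theorem isFG_comp {n : ℕ} {X : T.C} {a : SHCat.Hom (SHCat.ten P.obj X) X}
    (f : P.obj ≅ P'.obj) (hφ : ∀ (m : ℕ) (x : P257.St.VPoly p m), φ m x ≫ f.hom = φ' m x)
    (h : P221.St.IsFG φ n a) : P221.St.IsFG φ' n (X := X) ((f.inv ▷ X) ≫ a) := by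
  obtain ⟨Y, hY, hY'⟩ := h
  refine ⟨Y, hY, fun k z => ?_⟩
  obtain ⟨z', hz'⟩ := hY' k z
  refine ⟨z', ?_⟩
  generalize z - P251.St.zmul p z' = w at hz' ⊢
  clear z z'
  induction hz' with
  | base h => exact .base h
  | zero k => exact .zero k
  | sub _ _ h1 h2 => exact .sub h1 h2
  | @mul j k l y e h1 h2 he _ ih =>
    have h3 := P221.St.Span.mul (φ := φ') (n := n) (a := (f.inv ▷ X) ≫ a) e h1 h2 he ih
    have h4 : (hazV φ' j ⊗ₘ y) ≫ (f.inv ▷ X) ≫ a = (hazV φ j ⊗ₘ y) ≫ a := by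
      have h5 : hazV φ' j = hazV φ j ≫ f.hom := (hφ _ _).symm
      rw [h5, ← tensorHom_id, ← Category.assoc, tensorHom_comp_tensorHom, Category.assoc,
        Iso.hom_inv_id, Category.comp_id, Category.comp_id]
    have h5 : SHCat.comp e (SHCat.comp (SHCat.tenHom (hazV φ' j) y) ((f.inv ▷ X) ≫ a)) =
      SHCat.comp e (SHCat.comp (SHCat.tenHom (hazV φ j) y) a) := congrArg (fun t => e ≫ t) h4
    rw [h5] at h3
    exact h3

end Vale.Agent.P221.H509
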