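import Vale.Agent.P221.H509.StFG
import Vale.Agent.P221.H509.BPIso
import Vale.Agent.P221.T.H520.Asm
import Vale.Agent.P221.H521.ThickTen

/-!
# P221 (helper509): assembly of part T at the statement layer

`thick_of_finite` : from `SpecSrc`, `b : BPS`, a form `FormD` and the lifting property: every `X` with
`IsBPFinite S p n X` lies in `Thick B`.
-/

open CategoryTheory MonoidalCategory MonObj Limits Pretriangulated

set_option linter.unusedSectionVars false

noncomputable section

namespace Vale.Agent.P221.H509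

open Vale.Agent.P251.T Vale.Agent.P251.M Vale.Agent.P251.S Vale.Agent.P251.St Vale.Agent.P257.St
open Vale.Agent.P221.T (BPS FormD SpecSrc SrcT Lifts hat dd)

variable {T : SHCat} {S : Susp T} {p : ℕ}

theorem stThick_of_thick {B X : T.C} (h : Vale.Agent.P221.T.Thick B X) : P221.St.Thick B X := by
  induction h with
  | base => exact .base
  | zero h => exact .zero ((IsZero.iff_id_eq_zero _).1 h)
  | shift k _ ih => exact .susp k ih
  | cof hd _ _ h1 h2 => exact .cof hd h1 h2
  | retract i r hir _ ih => exact .retract i r hir ih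

variable [hp : Fact p.Prime] {n : ℕ} {P : RingSp T} {o : P251.St.Oriented S P} {φ : GHom S p P}

theorem finGen_of_isFG {X : T.C} {a : SHCat.Hom (SHCat.ten P.obj X) X} (ha : P221.St.IsAct a)
    (hX : H395.PComplete p X) {Pc W : T.C} (b : BPS p P.obj Pc W) (hb : Matches b φ)
    (hfg : P221.St.IsFG φ n a) : b.FinGen n (H924.modOf ha) hX := by
  obtain ⟨r, e, y, hy, h⟩ := fg_of_isFG ha hX b hb hfg
  choose y' hy' using hy
  refine ⟨r, e, y', fun k z => ?_⟩
  obtain ⟨f, hf, hz⟩ := h k _ ⟨z, rfl⟩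
  refine ⟨f, hf, hz.trans (Finset.sum_congr rfl fun i _ => ?_)⟩
  rw [hy' i]
  rfl

/-- **Assembly at the statement layer.** -/
theorem thick_of_finite (hsrc : SpecSrc p n T.C) (hP : IsBrownPeterson p o φ) {Pc W : T.C}
    (b : BPS p P.obj Pc W) (hTop : b.Top) (hb : Matches b φ) {B : T.C} (F : FormD b n B)
    (hL : ∀ S : SrcT p n Pc, (∀ l, b.c⟦dd p n l⟧' ≫ S.x l =
      hat b.MP (b.cls (dd p n l) (F.x l))) → Lifts S F.Q)
    {X : T.C} (hX : P221.St.IsBPFinite S p n X) : P221.St.Thick B X := by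
  obtain ⟨hc, P', o', φ', a', hP', ha', hfg⟩ := hX
  obtain ⟨f, hf, hf', hφ⟩ := exists_bp_iso hP' hP
  have h1 := isAct_comp (P' := P) ha' f.inv
  have h2 := isFG_comp f hφ hfg
  exact stThick_of_thick (Vale.Agent.P221.T.thick_of_formD hsrc b hTop F hL X (H924.modOf h1) hc
    (finGen_of_isFG h1 hc b hb h2))

end Vale.Agent.P221.H509
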