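import Vale.Agent.P221.H509.OM
import Vale.Agent.P221.H174.Kap

/-!
# P221 (helper509): the operators on `M(X) = π_{2*}(R ⊗ (X ⊗ C))`

* `opw e h w` : the operation of `e : S^{2j} ⊗ R ⟶ R` on `w ∈ π_{2i}(R ⊗ Z)`;
* `Ctx.O` : the type of all operators `e : S^{2j} ⊗ R ⟶ R`, `j : ℤ`;
* `Ctx.OM X : OM (ZMod p) c.O c.dego` : `c.M X` with the operators; `Ctx.omap f`.
-/

open CategoryTheory MonoidalCategory Limits Pretriangulated MonObj
open Vale.Agent.P251.T Vale.Agent.P251.M Vale.Agent.P251.S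
open Vale.Agent.P251.M.EvenSpheres

universe u

set_option linter.unusedSectionVars false

noncomputable section

namespace Vale.Agent.P221

variable {T : Type u} [Category.{0} T] [Preadditive T] [HasZeroObject T]
    [HasShift T ℤ] [∀ n : ℤ, (shiftFunctor T n).Additive] [Pretriangulated T] [IsTriangulated T]
    [MonoidalCategory T] [SymmetricCategory T] [TensorTriangulated T] [MonoidalClosed T]
    [HasCoproducts.{0} T] [HasProducts.{0} T] [StableCat T]

/-- the operation of `e : S^{2j} ⊗ R ⟶ R` on `w ∈ π_{2i}(R ⊗ Z)` -/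
def opw {R Z : T} {j i l : ℤ} (e : (stdEven T).S j ⊗ R ⟶ R) (h : j + i = l)
    (w : (stdEven T).S i ⟶ R ⊗ Z) : (stdEven T).S l ⟶ R ⊗ Z :=
  (stdEven T).ext h (𝟙 ((stdEven T).S j)) w ≫ (α_ ((stdEven T).S j) R Z).inv ≫ e ▷ Z

theorem opw_zero {R Z : T} {j i l : ℤ} (e : (stdEven T).S j ⊗ R ⟶ R) (h : j + i = l) :
    opw e h (0 : (stdEven T).S i ⟶ R ⊗ Z) = 0 := by
  unfold opw
  rw [ext_zero_right, zero_comp]

theorem opw_add {R Z : T} {j i l : ℤ} (e : (stdEven T).S j ⊗ R ⟶ R) (h : j + i = l)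
    (w w' : (stdEven T).S i ⟶ R ⊗ Z) : opw e h (w + w') = opw e h w + opw e h w' := by
  unfold opw
  rw [ext_add_right, Preadditive.add_comp]

/-- naturality -/
theorem opw_comp {R Z Z' : T} {j i l : ℤ} (e : (stdEven T).S j ⊗ R ⟶ R) (h : j + i = l)
    (w : (stdEven T).S i ⟶ R ⊗ Z) (f : Z ⟶ Z') :
    opw e h (w ≫ R ◁ f) = opw e h w ≫ R ◁ f := by
  unfold opw
  rw [ext_comp_right, Category.assoc, Category.assoc, Category.assoc, ← whisker_exchange,
    associator_inv_naturality_right_assoc]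

namespace H174.Ctx

variable {p : ℕ} (c : Ctx T p)

/-- the operators -/
abbrev O : Type := Σ j : ℤ, ((stdEven T).S j ⊗ c.R ⟶ c.R)

/-- the degree of an operator -/
abbrev dego (o : c.O) : ℤ := o.1

variable {c} in
theorem dego_eq {o : c.O} {i j : ℤ} (h : i + c.dego o = j) : o.1 + i = j := by
  have h' : i + o.1 = j := h
  omega

/-- `M(X)` with the operators -/
abbrev OM (X : T) : Vale.Agent.P221.OM (ZMod p) c.O c.dego where
  M := c.M X
  op o {i j} h :=
    { toFun := fun w : (stdEven T).S i ⟶ c.R ⊗ (X ⊗ c.C) =>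
        (opw o.2 (dego_eq h) w : (stdEven T).S j ⟶ c.R ⊗ (X ⊗ c.C))
      map_zero' := opw_zero o.2 (dego_eq h)
      map_add' := opw_add o.2 (dego_eq h) }

theorem op_apply (X : T) (o : c.O) {i j : ℤ} (h : i + c.dego o = j) (w : (c.M X).A i) :
    ((c.OM X).op o h w : (stdEven T).S j ⟶ c.R ⊗ (X ⊗ c.C)) =
      opw o.2 (dego_eq h) (w : (stdEven T).S i ⟶ c.R ⊗ (X ⊗ c.C)) := rfl

/-- the map induced by `f : X ⟶ Y` -/
def omap {X Y : T} (f : X ⟶ Y) : OM.Hom (c.OM X) (c.OM Y) where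
  f := c.map f
  op_comm o {i _} h w :=
    (opw_comp o.2 (dego_eq h) (w : (stdEven T).S i ⟶ c.R ⊗ (X ⊗ c.C)) (f ▷ c.C)).symm

theorem omap_f {X Y : T} (f : X ⟶ Y) : (c.omap f).f = c.map f := rfl

end H174.Ctx

end Vale.Agent.P221
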