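import Vale.Agent.P221.H509.StFG
import Vale.Agent.P251.M.QOut

/-!
# P221 (helper509): the classes of `b : BPS` and the Hazewinkel generators of the statement layer
-/

open CategoryTheory MonoidalCategory MonObj Limits Pretriangulated

set_option linter.unusedSectionVars false

noncomputable section

namespace Vale.Agent.P221.H509

open Vale.Agent.P251 Vale.Agent.P251.S Vale.Agent.P251.T Vale.Agent.P251.M Vale.Agent.P251.F
  Vale.Agent.P251.I EvenSpheres Vale.Agent.P257.H702 Vale.Agent.P257.H80 Vale.Agent.P251.Q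
  Vale.Agent.P251.St Vale.Agent.P257.St
open Vale.Agent.P221.T (BPS sV)

variable {T : SHCat} {S : Susp T} {p : ℕ} [hp : Fact p.Prime] {P : RingSp T}
  {φ : P257.St.GHom S p P} {Pc W : T.C}

theorem matches_of (b : BPS p P.obj Pc W) {Φ : MvPolynomial ℕ ℤ →+* HRing (stdEven T.C) P.obj}
    (hφ : ∀ (m : ℕ) (x : P257.St.VPoly p m),
      Φ x = HRing.of (stdEven T.C) P.obj m ((isoE S m).inv ≫ φ m x))
    (w : ℕ → ℤ) (hw : ∀ i, sV p (i + 1) = 2 * w i) (hw' : ∀ i, w i = ((p ^ (i + 1) - 1 : ℕ) : ℤ))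
    (hv : ∀ i, b.v i = eqToHom (congrArg (fun k => (𝟙_ T.C)⟦k⟧) (hw i)) ≫
      (stdSph (w i)).inv ≫ (Φ (MvPolynomial.X i)) (w i)) : Matches b φ := by
  intro i
  have h0 : Φ (MvPolynomial.X i) = HRing.of (stdEven T.C) P.obj ((p ^ (i + 1) - 1 : ℕ) : ℤ)
      ((isoE S _).inv ≫ hazV φ (i + 1)) := hφ _ ⟨vEl p (i + 1), vEl_mem p (i + 1)⟩
  have h1 := hv i
  have h2 := hw' i
  have key : ∀ (k w : ℤ) (h : k = 2 * w) (h2 : w = ((p ^ (i + 1) - 1 : ℕ) : ℤ))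
      (v : (𝟙_ T.C)⟦k⟧ ⟶ P.obj), v = eqToHom (congrArg (fun k => (𝟙_ T.C)⟦k⟧) h) ≫
        (stdSph w).inv ≫ (Φ (MvPolynomial.X i)) w →
      ∃ ε : (𝟙_ T.C)⟦k⟧ ≅ S.obj (Cn (p ^ (i + 1) - 1)), v = ε.hom ≫ hazV φ (i + 1) := by
    rintro _ _ rfl rfl v hv
    refine ⟨(stdSph _).symm ≪≫ (isoE S _).symm, ?_⟩
    rw [hv, h0]
    simp only [eqToHom_refl, Category.id_comp, Iso.trans_hom, Iso.symm_hom, Category.assoc]
    congr 1
    exact DirectSum.of_eq_same _ _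
  exact key _ _ (hw i) h2 _ h1

end Vale.Agent.P221.H509
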