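import Vale.Agent.P251.S.TowerR
import Vale.Agent.P251.S.ModExt
import Vale.Agent.P221.T.Gc

/-!
# P221 (helper509): graded linear maps

* `shM M k : ModStr R (N⟦k⟧)` : the shift of a module structure;
* `gc_linear` : the graded composition of linear maps is linear;
* `lx M x : R⟦k⟧ ⟶ N` : the linear extension of `x : 𝟙⟦k⟧ ⟶ N`.
-/

open CategoryTheory MonoidalCategory Limits Pretriangulated MonObj
open Vale.Agent.P251.T Vale.Agent.P251.S
open Vale.Agent.P221.T (gc gc_assoc comp_gc)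

set_option linter.unusedSectionVars false

universe v u

namespace Vale.Agent.P221.H509

variable {T : Type u} [Category.{v} T] [Preadditive T] [HasZeroObject T]
    [HasShift T ℤ] [∀ n : ℤ, (shiftFunctor T n).Additive] [Pretriangulated T]
    [MonoidalCategory T] [SymmetricCategory T] [TensorTriangulated T]

variable {R : T} [MonObj R] {N N' N'' : T}

/-- The shift of a module structure. -/
noncomputable def shM (M : ModStr R N) (k : ℤ) : ModStr R (N⟦k⟧) where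
  act := (csh R k N).hom ≫ M.act⟦k⟧'
  one_act := by
    rw [← csh_tlMap_assoc, ← Functor.map_comp, M.one_act, csh_leftUnitor]
  mul_act := by
    rw [← csh_tlMap_assoc, ← Functor.map_comp, M.mul_act, Functor.map_comp, csh_associator_assoc,
      Functor.map_comp, ← csh_nat_assoc, MonoidalCategory.whiskerLeft_comp, Category.assoc]

theorem shM_act (M : ModStr R N) (k : ℤ) : (shM M k).act = (csh R k N).hom ≫ M.act⟦k⟧' := rfl

theorem linear_shift {M : ModStr R N} {M' : ModStr R N'} {f : N ⟶ N'} (hf : M.IsLinear M' f)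
    (k : ℤ) : (shM M k).IsLinear (shM M' k) (f⟦k⟧') := by
  unfold ModStr.IsLinear at hf ⊢
  rw [shM_act, shM_act, Category.assoc, ← Functor.map_comp, hf, Functor.map_comp, csh_nat_assoc]

theorem linear_comp {M : ModStr R N} {M' : ModStr R N'} {M'' : ModStr R N''} {f : N ⟶ N'}
    {g : N' ⟶ N''} (hf : M.IsLinear M' f) (hg : M'.IsLinear M'' g) : M.IsLinear M'' (f ≫ g) := by
  unfold ModStr.IsLinear at hf hg ⊢
  rw [← Category.assoc, hf, Category.assoc, hg, MonoidalCategory.whiskerLeft_comp, Category.assoc]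

/-- `N⟦k'⟧ ≅ N⟦m⟧⟦k⟧` is linear. -/
theorem linear_add (M : ModStr R N) {m k k' : ℤ} (h : m + k = k') :
    (shM M k').IsLinear (shM (shM M m) k) ((shiftFunctorAdd' T m k k' h).hom.app N) := by
  unfold ModStr.IsLinear
  have h1 := congrArg (fun z => z.hom.app N) (Functor.commShiftIso_add' (tensorLeft R) h)
  rw [Functor.CommShift.isoAdd'_hom_app] at h1
  have h2 : (csh R k' N).hom = R ◁ (shiftFunctorAdd' T m k k' h).hom.app N ≫
      (csh R k (N⟦m⟧)).hom ≫ (csh R m N).hom⟦k⟧' ≫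
        (shiftFunctorAdd' T m k k' h).inv.app (R ⊗ N) := h1
  have h3 : (shiftFunctorAdd' T m k k' h).inv.app (R ⊗ N) ≫ M.act⟦k'⟧' ≫
      (shiftFunctorAdd' T m k k' h).hom.app N = (M.act⟦m⟧')⟦k⟧' := by
    have h4 := (shiftFunctorAdd' T m k k' h).hom.naturality M.act
    rw [h4, Iso.inv_hom_id_app_assoc]
    rfl
  rw [shM_act, shM_act, shM_act, Functor.map_comp, h2]
  simp only [Category.assoc]
  rw [h3]

/-- The graded composition of linear maps is linear. -/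
theorem gc_linear {Q Q' Y : T} {MQ : ModStr R Q} {MQ' : ModStr R Q'} {MY : ModStr R Y}
    {m k k' : ℤ} (h : k + m = k') {γ : Q⟦m⟧ ⟶ Q'} {a : Q'⟦k⟧ ⟶ Y}
    (hγ : (shM MQ m).IsLinear MQ' γ) (ha : (shM MQ' k).IsLinear MY a) :
    (shM MQ k').IsLinear MY (gc h γ a) :=
  linear_comp (linear_add MQ (by omega)) (linear_comp (linear_shift hγ k) ha)

/-- `R ⊗ 𝟙⟦k⟧ ≅ R⟦k⟧` is linear. -/
theorem linear_tensorSph (k : ℤ) : ((ModStr.self R).tensorRight ((𝟙_ T)⟦k⟧)).IsLinear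
    (shM (ModStr.self R) k) (tensorSph k R).hom := by
  unfold ModStr.IsLinear
  have h1 := csh_associator R R k (𝟙_ T)
  change ((α_ R R ((𝟙_ T)⟦k⟧)).inv ≫ (μ[R] ▷ ((𝟙_ T)⟦k⟧))) ≫
      (csh R k (𝟙_ T)).hom ≫ ((ρ_ R).hom)⟦k⟧' =
    (R ◁ ((csh R k (𝟙_ T)).hom ≫ ((ρ_ R).hom)⟦k⟧')) ≫ (csh R k R).hom ≫ μ[R]⟦k⟧'
  rw [Category.assoc, ← csh_tlMap_assoc, ← Functor.map_comp, rightUnitor_naturality,
    MonoidalCategory.whiskerLeft_comp, Category.assoc, csh_nat_assoc, ← Functor.map_comp,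
    ← cancel_epi (α_ R R ((𝟙_ T)⟦k⟧)).hom, Iso.hom_inv_id_assoc, ← csh_associator_assoc,
    ← Functor.map_comp, rightUnitor_tensor_hom_assoc]

theorem linear_of_inv {M : ModStr R N} {M' : ModStr R N'} {f : N ≅ N'}
    (hf : M.IsLinear M' f.hom) : M'.IsLinear M f.inv := by
  unfold ModStr.IsLinear at hf ⊢
  rw [← cancel_mono f.hom, Category.assoc, Iso.inv_hom_id, Category.comp_id, Category.assoc, hf,
    ← MonoidalCategory.whiskerLeft_comp_assoc, Iso.inv_hom_id, MonoidalCategory.whiskerLeft_id,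
    Category.id_comp]

/-- the linear extension of `x : 𝟙⟦k⟧ ⟶ N` -/
noncomputable def lx (M : ModStr R N) {k : ℤ} (x : (𝟙_ T)⟦k⟧ ⟶ N) : R⟦k⟧ ⟶ N :=
  (tensorSph k R).inv ≫ M.ext x

theorem lx_linear (M : ModStr R N) {k : ℤ} (x : (𝟙_ T)⟦k⟧ ⟶ N) :
    (shM (ModStr.self R) k).IsLinear M (lx M x) :=
  linear_comp (linear_of_inv (linear_tensorSph k)) (M.ext_linear x)

theorem unit_tensorSph (k : ℤ) : ModStr.unitMap R ((𝟙_ T)⟦k⟧) ≫ (tensorSph k R).hom =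
    (η[R])⟦k⟧' := by
  change ((λ_ ((𝟙_ T)⟦k⟧)).inv ≫ (η[R] ▷ ((𝟙_ T)⟦k⟧))) ≫ (csh R k (𝟙_ T)).hom ≫
    ((ρ_ R).hom)⟦k⟧' = _
  rw [Category.assoc, ← csh_tlMap_assoc, ← Functor.map_comp, rightUnitor_naturality,
    Functor.map_comp, ← cancel_epi (λ_ ((𝟙_ T)⟦k⟧)).hom, Iso.hom_inv_id_assoc,
    ← csh_leftUnitor_assoc]
  congr 1
  rw [← Functor.map_comp, ← Functor.map_comp, unitors_equal]

theorem unit_lx (M : ModStr R N) {k : ℤ} (x : (𝟙_ T)⟦k⟧ ⟶ N) : (η[R])⟦k⟧' ≫ lx M x = x := by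
  rw [← unit_tensorSph, lx, Category.assoc, Iso.hom_inv_id_assoc, M.unitMap_ext]

/-- a graded linear map is determined by its restriction to the unit -/
theorem eq_lx (M : ModStr R N) {k : ℤ} {a : R⟦k⟧ ⟶ N}
    (ha : (shM (ModStr.self R) k).IsLinear M a) : a = lx M ((η[R])⟦k⟧' ≫ a) := by
  have h1 := M.ext_unitMap ((tensorSph k R).hom ≫ a) (linear_comp (linear_tensorSph k) ha)
  rw [lx, ← unit_tensorSph, Category.assoc, h1, Iso.inv_hom_id_assoc]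

theorem linear_ext (M : ModStr R N) {k : ℤ} {a b : R⟦k⟧ ⟶ N}
    (ha : (shM (ModStr.self R) k).IsLinear M a) (hb : (shM (ModStr.self R) k).IsLinear M b)
    (h : (η[R])⟦k⟧' ≫ a = (η[R])⟦k⟧' ≫ b) : a = b := by
  rw [eq_lx M ha, h, ← eq_lx M hb]

section preadd

theorem lx_zero (M : ModStr R N) (k : ℤ) : lx M (0 : (𝟙_ T)⟦k⟧ ⟶ N) = 0 := by
  have h1 : R ◁ (0 : (𝟙_ T)⟦k⟧ ⟶ N) = 0 := (tensorLeft R).map_zero _ _
  rw [lx, ModStr.ext, h1, zero_comp, comp_zero]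

theorem lx_add (M : ModStr R N) {k : ℤ} (x y : (𝟙_ T)⟦k⟧ ⟶ N) :
    lx M (x + y) = lx M x + lx M y := by
  have h1 : R ◁ (x + y) = R ◁ x + R ◁ y := (tensorLeft R).map_add
  rw [lx, ModStr.ext, h1, Preadditive.add_comp, Preadditive.comp_add]
  rfl

end preadd

theorem lx_comp {M : ModStr R N} {M' : ModStr R N'} {f : N ⟶ N'} (hf : M.IsLinear M' f) {k : ℤ}
    (x : (𝟙_ T)⟦k⟧ ⟶ N) : lx M x ≫ f = lx M' (x ≫ f) := by
  rw [lx, Category.assoc, M.ext_comp M' x f hf]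
  rfl

/-- the product of `x ∈ π_m R` and `y ∈ π_k N` -/
noncomputable def pr (M : ModStr R N) {m k k' : ℤ} (h : k + m = k') (x : (𝟙_ T)⟦m⟧ ⟶ R)
    (y : (𝟙_ T)⟦k⟧ ⟶ N) : (𝟙_ T)⟦k'⟧ ⟶ N := gc h x (lx M y)

theorem lx_pr (M : ModStr R N) {m k k' : ℤ} (h : k + m = k') (x : (𝟙_ T)⟦m⟧ ⟶ R)
    (y : (𝟙_ T)⟦k⟧ ⟶ N) : lx M (pr M h x y) = gc h (lx (ModStr.self R) x) (lx M y) := by
  refine linear_ext M (lx_linear M _) (gc_linear h (lx_linear _ x) (lx_linear M y)) ?_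
  rw [unit_lx, comp_gc, unit_lx]
  rfl

/-- associativity -/
theorem pr_pr (M : ModStr R N) {m l k k₁ k₂ k' : ℤ} (x : (𝟙_ T)⟦m⟧ ⟶ R) (x' : (𝟙_ T)⟦l⟧ ⟶ R)
    (y : (𝟙_ T)⟦k⟧ ⟶ N) (h₁ : k + l = k₁) (h₂ : k₁ + m = k') (h₃ : l + m = k₂)
    (h₄ : k + k₂ = k') :
    pr M h₂ x (pr M h₁ x' y) = pr M h₄ (pr (ModStr.self R) h₃ x x') y := by
  rw [pr, lx_pr, gc_assoc _ _ _ h₁ h₂ h₃ h₄]
  rfl

end Vale.Agent.P221.H509
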