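import Vale.Agent.P221.T.H598.HB
import Vale.Agent.P221.T.H817.FreeP2
import Vale.Agent.P221.H246.FreeWG

/-!
# P221 (helper509): the theorem on fp-spectra, without hypotheses
-/

set_option linter.unusedSectionVars false

noncomputable section

namespace Vale.Agent.P221.H509

open Vale.Agent.P251 Vale.Agent.P251.S Vale.Agent.P251.T Vale.Agent.P251.M Vale.Agent.P251.F
  Vale.Agent.P251.I Vale.Agent.P257.H702 Vale.Agent.P257.H80
  Vale.Agent.P251.St Vale.Agent.P251.St.SHCat Vale.Agent.P257.St Vale.Agent.P221.St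

variable {T : SHCat} {S : Susp T} {p n : ℕ}

/-- **BP-finite spectra lie in the thick subcategory of the forms** -/
theorem thick_of_isBPFinite [Fact p.Prime] {B X : T.C} (hB : IsForm S p n B)
    (hX : IsBPFinite S p n X) : Thick B X := by
  refine thick_of_isBPFinite_of (Vale.Agent.P221.T.specSrc p n) ?_ hB hX
  refine Vale.Agent.P221.T.H598.HB_of (S := S) ?_ ?_
  · intro D hD hA R _ _ b₀ _ Φ hb hΦ P W cd
    exact Vale.Agent.P221.T.H817.freeP hD hA hb hΦ cd
  · intro D hD hA R _ _ b₀ _ Φ hb hΦ P W cd
    exact Vale.Agent.P221.H246.freeW hD hA hb hΦ cd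

/-- **fp-spectra of fp-type at most `n` lie in the thick subcategory of the standard forms** -/
theorem thick_of_isStandardForm (hp : p.Prime) {B X Y : T.C} (hB : IsStandardForm S p n B)
    (hX : IsFpType S p n X) (hXY : Thick X Y) (hYX : Thick Y X) (hM : IsOrModule S Y) :
    Thick B X := by
  have : Fact p.Prime := ⟨hp⟩
  exact thick_of_isStandardForm_of hp (fun _ _ hB hX => thick_of_isBPFinite hB hX)
    hB hX hXY hYX hM

end Vale.Agent.P221.H509
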