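import Vale.Agent.P221.GM

/-!
# P221 (helper509): graded modules with operators, filtrations

* `OM k O deg` : a graded module over `k[Y_0, Y_1, …]` with additional operators `op o` of degree
  `deg o`, `o : O` (in the application: the maps `R ⟶ R⟦2 j⟧`, acting on `π_* (R ⊗ (X ⊗ C))`).
* `OM.Flt B M L` : `M` has a finite filtration with quotients `(B l).shift a`, `(l, a) ∈ L` (the top
  quotient first).
* `OM.Flt.exists_sub` : an arbitrary step `(B l).shift a` of the filtration: a subobject `F` with a
  surjection `θ : F ⟶ (B l).shift a`, extension of functionals from `F` to `M`, and the filtration of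
  the kernel of an extension of `θ` to `M`.
-/

namespace Vale.Agent.P221

open GM

variable {k : Type} [CommRing k]

/-- graded modules over `k[Y_0, Y_1, …]` with operators -/
structure OM (k : Type) [CommRing k] (O : Type) (deg : O → ℤ) where
  /-- the graded module -/
  M : GM k
  /-- the operators -/
  op (o : O) {i j : ℤ} (h : i + deg o = j) : M.A i →+ M.A j

namespace OM

variable {O : Type} {deg : O → ℤ}

/-- maps of graded modules commuting with the operators -/
structure Hom (M N : OM k O deg) where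
  /-- the linear map -/
  f : Lin Set.univ M.M N.M
  op_comm : ∀ (o : O) {i j : ℤ} (h : i + deg o = j) (x : M.M.A i),
    f.f j (M.op o h x) = N.op o h (f.f i x)

/-- the value -/
abbrev Hom.ap {M N : OM k O deg} (g : Hom M N) {i : ℤ} (x : M.M.A i) : N.M.A i := g.f.f i x

theorem Hom.act_comm {M N : OM k O deg} (g : Hom M N) (m : ℕ) {i j : ℤ}
    (h : i + ((m : ℤ) + 1) = j) (x : M.M.A i) :
    g.ap (M.M.act m h x) = N.M.act m h (g.ap x) := g.f.comm m (Set.mem_univ _) h x

theorem Hom.ext' {M N : OM k O deg} {g g' : Hom M N}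
    (h : ∀ i (x : M.M.A i), g.ap x = g'.ap x) : g = g' := by
  obtain ⟨⟨g, h2⟩, h3⟩ := g
  obtain ⟨⟨g', h4⟩, h5⟩ := g'
  have h9 : g = g' := by
    funext i
    ext x
    exact h i x
  subst h9
  rfl

/-- identity -/
def Hom.id (M : OM k O deg) : Hom M M := ⟨Lin.id _ _, fun _ _ _ _ _ => rfl⟩

/-- composition, in diagrammatic order -/
def Hom.comp {M N P : OM k O deg} (f : Hom M N) (g : Hom N P) : Hom M P :=
  ⟨f.f.comp g.f, fun o i j h x => by
    change g.f.f j (f.f.f j _) = P.op o h (g.f.f i (f.f.f i x))
    rw [f.op_comm, g.op_comm]⟩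

theorem Hom.comp_ap {M N P : OM k O deg} (f : Hom M N) (g : Hom N P) {i : ℤ} (x : M.M.A i) :
    (f.comp g).ap x = g.ap (f.ap x) := rfl

/-- the shift -/
def shift (M : OM k O deg) (a : ℤ) : OM k O deg where
  M :=
    { A := fun i => M.M.A (i - a)
      act := fun m _ _ h => M.M.act m (by omega)
      comm := fun m n _ _ _ _ h1 h2 h3 h4 x => M.M.comm m n _ _ _ _ x }
  op o _ _ h := M.op o (by omega)

theorem shift_act (M : OM k O deg) (a : ℤ) (m : ℕ) {i j : ℤ} (h : i + ((m : ℤ) + 1) = j)
    (x : M.M.A (i - a)) : (M.shift a).M.act m h x = M.M.act m (by omega) x := rfl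

theorem shift_op (M : OM k O deg) (a : ℤ) (o : O) {i j : ℤ} (h : i + deg o = j)
    (x : M.M.A (i - a)) : (M.shift a).op o h x = M.op o (by omega) x := rfl

/-- the kernel of `g` -/
def ker {M N : OM k O deg} (g : Hom M N) : OM k O deg where
  M :=
    { A := fun i => LinearMap.ker (g.f.f i)
      act := fun m _ _ h => (M.M.act m h).restrict fun x hx => by
        rw [LinearMap.mem_ker] at hx ⊢
        rw [g.f.comm m (Set.mem_univ _) h x, hx, map_zero]
      comm := fun m n _ _ _ _ h1 h2 h3 h4 x => by
        apply Subtype.ext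
        exact M.M.comm m n h1 h2 h3 h4 x.1 }
  op o i j h :=
    { toFun := fun x => ⟨M.op o h x.1, by
        have := x.2
        rw [LinearMap.mem_ker] at this ⊢
        rw [g.op_comm o h x.1, this, map_zero]⟩
      map_zero' := by
        apply Subtype.ext
        exact map_zero _
      map_add' := fun x y => by
        apply Subtype.ext
        exact map_add _ _ _ }

/-- the inclusion of the kernel -/
def kerι {M N : OM k O deg} (g : Hom M N) : Hom (ker g) M where
  f := ⟨fun i => (LinearMap.ker (g.f.f i)).subtype, fun _ _ _ _ _ _ => rfl⟩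
  op_comm _ _ _ _ _ := rfl

theorem kerι_ap {M N : OM k O deg} (g : Hom M N) {i : ℤ} (x : (ker g).M.A i) :
    (kerι g).ap x = x.1 := rfl

/-- short exact sequences -/
structure Ses (M' M M'' : OM k O deg) where
  /-- the inclusion -/
  f : Hom M' M
  /-- the projection -/
  g : Hom M M''
  inj : ∀ i, Function.Injective (f.f.f i)
  surj : ∀ i, Function.Surjective (g.f.f i)
  exact : ∀ i (x : M.M.A i), g.ap x = 0 ↔ ∃ y, f.ap y = x

/-- the underlying short exact sequence -/
def Ses.toSes {M' M M'' : OM k O deg} (S : Ses M' M M'') : GM.Ses M'.M M.M M''.M :=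
  ⟨S.f.f, S.g.f, S.inj, S.surj, S.exact⟩

/-- The image of an injective map which is the kernel of another one, as an isomorphism. -/
structure Iso (M N : OM k O deg) where
  /-- the map -/
  f : Hom M N
  bij : ∀ i, Function.Bijective (f.f.f i)

/-- identity -/
def Iso.refl (M : OM k O deg) : Iso M M := ⟨Hom.id M, fun _ => Function.bijective_id⟩

/-- inverse -/
noncomputable def Iso.symm {M N : OM k O deg} (e : Iso M N) : Iso N M where
  f :=
    { f :=
        { f := fun i => (LinearEquiv.ofBijective (e.f.f.f i) (e.bij i)).symm.toLinearMap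
          comm := fun m _ i j h x => by
            apply (e.bij j).1
            obtain ⟨y, rfl⟩ := (e.bij i).2 x
            have h1 : ∀ l (z : N.M.A l), e.f.f.f l
                ((LinearEquiv.ofBijective (e.f.f.f l) (e.bij l)).symm z) = z := fun l z =>
              (LinearEquiv.ofBijective (e.f.f.f l) (e.bij l)).apply_symm_apply z
            have h2 : (LinearEquiv.ofBijective (e.f.f.f i) (e.bij i)).symm (e.f.f.f i y) = y :=
              (LinearEquiv.ofBijective (e.f.f.f i) (e.bij i)).symm_apply_apply y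
            change e.f.f.f j ((LinearEquiv.ofBijective (e.f.f.f j) (e.bij j)).symm _) =
              e.f.f.f j (M.M.act m h ((LinearEquiv.ofBijective (e.f.f.f i) (e.bij i)).symm _))
            rw [h1, h2]
            exact (e.f.act_comm m h y).symm }
      op_comm := fun o i j h x => by
        apply (e.bij j).1
        obtain ⟨y, rfl⟩ := (e.bij i).2 x
        have h1 : ∀ l (z : N.M.A l), e.f.f.f l
            ((LinearEquiv.ofBijective (e.f.f.f l) (e.bij l)).symm z) = z := fun l z =>
          (LinearEquiv.ofBijective (e.f.f.f l) (e.bij l)).apply_symm_apply z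
        have h2 : (LinearEquiv.ofBijective (e.f.f.f i) (e.bij i)).symm (e.f.f.f i y) = y :=
          (LinearEquiv.ofBijective (e.f.f.f i) (e.bij i)).symm_apply_apply y
        change e.f.f.f j ((LinearEquiv.ofBijective (e.f.f.f j) (e.bij j)).symm _) =
          e.f.f.f j (M.op o h ((LinearEquiv.ofBijective (e.f.f.f i) (e.bij i)).symm _))
        rw [h1, h2]
        exact (e.f.op_comm o h y).symm }
  bij i := (LinearEquiv.ofBijective (e.f.f.f i) (e.bij i)).symm.bijective

theorem Iso.symm_ap {M N : OM k O deg} (e : Iso M N) {i : ℤ} (x : M.M.A i) :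
    e.symm.f.ap (e.f.ap x) = x :=
  (LinearEquiv.ofBijective (e.f.f.f i) (e.bij i)).symm_apply_apply x

theorem Iso.ap_symm {M N : OM k O deg} (e : Iso M N) {i : ℤ} (x : N.M.A i) :
    e.f.ap (e.symm.f.ap x) = x :=
  (LinearEquiv.ofBijective (e.f.f.f i) (e.bij i)).apply_symm_apply x

/-- composition -/
def Iso.trans {M N P : OM k O deg} (e : Iso M N) (e' : Iso N P) : Iso M P :=
  ⟨e.f.comp e'.f, fun i => (e'.bij i).comp (e.bij i)⟩

/-- shift of a map -/
def Hom.shift {M N : OM k O deg} (g : Hom M N) (a : ℤ) : Hom (M.shift a) (N.shift a) where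
  f := ⟨fun i => g.f.f (i - a), fun m _ _ _ _ x => g.f.comm m (Set.mem_univ _) _ x⟩
  op_comm o _ _ _ x := g.op_comm o _ x

/-- shift of an isomorphism -/
def Iso.shift {M N : OM k O deg} (e : Iso M N) (a : ℤ) : Iso (M.shift a) (N.shift a) :=
  ⟨e.f.shift a, fun i => e.bij (i - a)⟩

/-- transport along an equality of degrees -/
def castA (M : OM k O deg) {i j : ℤ} (h : i = j) : M.M.A i ≃ₗ[k] M.M.A j := by
  subst h
  exact LinearEquiv.refl _ _

theorem castA_rfl (M : OM k O deg) {i : ℤ} (x : M.M.A i) : M.castA rfl x = x := rfl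

theorem castA_act (M : OM k O deg) {i j i' j' : ℤ} (h : i = i') (h' : j = j') (m : ℕ)
    (e : i + ((m : ℤ) + 1) = j) (e' : i' + ((m : ℤ) + 1) = j') (x : M.M.A i) :
    M.castA h' (M.M.act m e x) = M.M.act m e' (M.castA h x) := by
  subst h h'
  rfl

theorem castA_op (M : OM k O deg) {i j i' j' : ℤ} (h : i = i') (h' : j = j') (o : O)
    (e : i + deg o = j) (e' : i' + deg o = j') (x : M.M.A i) :
    M.castA h' (M.op o e x) = M.op o e' (M.castA h x) := by
  subst h h'
  rfl

/-- `(M.shift a).shift b = M.shift c` for `a + b = c` -/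
def shiftShift (M : OM k O deg) {a b c : ℤ} (h : a + b = c) :
    Iso ((M.shift a).shift b) (M.shift c) where
  f :=
    { f :=
        { f := fun i => (M.castA (i := i - b - a) (j := i - c) (by omega)).toLinearMap
          comm := fun m _ i j e x => M.castA_act _ _ m _ _ x }
      op_comm := fun o i j e x => M.castA_op _ _ o _ _ x }
  bij i := (M.castA (i := i - b - a) (j := i - c) (by omega)).bijective

/-- `M.shift 0 = M` -/
def shiftZero (M : OM k O deg) {a : ℤ} (h : a = 0) : Iso (M.shift a) M where
  f :=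
    { f :=
        { f := fun i => (M.castA (i := i - a) (j := i) (by omega)).toLinearMap
          comm := fun m _ i j e x => M.castA_act _ _ m _ _ x }
      op_comm := fun o i j e x => M.castA_op _ _ o _ _ x }
  bij i := (M.castA (i := i - a) (j := i) (by omega)).bijective

/-! ### Filtrations -/

variable {ι : Type}

/-- `M` has a finite filtration with quotients `(B l).shift a`, `(l, a) ∈ L`, the top quotient
first. -/
inductive Flt (B : ι → OM k O deg) : OM k O deg → List (ι × ℤ) → Prop
  | nil {M : OM k O deg} : (∀ i (x : M.M.A i), x = 0) → Flt B M []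
  | cons {M' M : OM k O deg} {l : ι} {a : ℤ} {L : List (ι × ℤ)} :
      Ses M' M ((B l).shift a) → Flt B M' L → Flt B M ((l, a) :: L)

variable {B : ι → OM k O deg}

/-- transport of a short exact sequence -/
noncomputable def Ses.ofIso {M' M M'' N : OM k O deg} (S : Ses M' M M'') (e : Iso M N) : Ses M' N M'' where
  f := S.f.comp e.f
  g := e.symm.f.comp S.g
  inj i := (e.bij i).1.comp (S.inj i)
  surj i := (S.surj i).comp (e.symm.bij i).2
  exact i x := by
    rw [Hom.comp_ap, S.exact]
    constructor
    · rintro ⟨y, hy⟩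
      exact ⟨y, by rw [Hom.comp_ap, hy, e.ap_symm]⟩
    · rintro ⟨y, rfl⟩
      exact ⟨y, by rw [Hom.comp_ap, e.symm_ap]⟩

theorem Flt.ofIso {M N : OM k O deg} {L : List (ι × ℤ)} (h : Flt B M L) (e : Iso M N) :
    Flt B N L := by
  cases h with
  | nil h =>
    exact .nil fun i x => by
      rw [← e.ap_symm x, h _ (e.symm.f.ap x)]
      exact map_zero (e.f.f.f i)
  | cons S h => exact .cons (S.ofIso e) h

/-- transport of the quotient -/
def Ses.ofIsoQ {M' M M'' N : OM k O deg} (S : Ses M' M M'') (e : Iso M'' N) : Ses M' M N where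
  f := S.f
  g := S.g.comp e.f
  inj := S.inj
  surj i := (e.bij i).2.comp (S.surj i)
  exact i x := by
    rw [Hom.comp_ap, ← S.exact]
    constructor
    · intro h
      apply (e.bij i).1
      exact h.trans (map_zero _).symm
    · intro h
      rw [h]
      exact map_zero _

/-- shift of a short exact sequence -/
def Ses.shift {M' M M'' : OM k O deg} (S : Ses M' M M'') (a : ℤ) :
    Ses (M'.shift a) (M.shift a) (M''.shift a) where
  f := S.f.shift a
  g := S.g.shift a
  inj i := S.inj (i - a)
  surj i := S.surj (i - a)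
  exact i x := S.exact (i - a) x

theorem Flt.shift {M : OM k O deg} {L : List (ι × ℤ)} (h : Flt B M L) (b : ℤ) :
    Flt B (M.shift b) (L.map fun q => (q.1, q.2 + b)) := by
  induction h with
  | nil h => exact .nil fun i x => h (i - b) x
  | cons S _ ih => exact .cons ((S.shift b).ofIsoQ ((B _).shiftShift rfl)) ih

/-- The kernel of the projection is the submodule. -/
noncomputable def Ses.isoKer {M' M M'' : OM k O deg} (S : Ses M' M M'') : Iso M' (ker S.g) where
  f :=
    { f :=
        { f := fun i => (S.f.f.f i).codRestrict _ fun x => by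
            rw [LinearMap.mem_ker]
            exact (S.exact i _).2 ⟨x, rfl⟩
          comm := fun m _ i j h x => Subtype.ext (S.f.act_comm m h x) }
      op_comm := fun o i j h x => Subtype.ext (S.f.op_comm o h x) }
  bij i := by
    constructor
    · intro x y h
      exact S.inj i (congrArg Subtype.val h)
    · rintro ⟨x, hx⟩
      obtain ⟨y, hy⟩ := (S.exact i x).1 hx
      exact ⟨y, Subtype.ext hy⟩

/-- restriction to the kernels: `ker (S.f ≫ g) → ker g → M''` is exact if `g` maps `M'` onto
everything -/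
def Ses.kerSes {M' M M'' N : OM k O deg} (S : Ses M' M M'') (g : Hom M N)
    (hg : ∀ i, Function.Surjective (g.f.f i ∘ S.f.f.f i)) : Ses (ker (S.f.comp g)) (ker g) M'' where
  f :=
    { f :=
        { f := fun i => (S.f.f.f i).restrict fun _ hx => hx
          comm := fun m _ i j h x => Subtype.ext (S.f.act_comm m h x.1) }
      op_comm := fun o i j h x => Subtype.ext (S.f.op_comm o h x.1) }
  g := (kerι g).comp S.g
  inj i x y h := Subtype.ext (S.inj i (congrArg Subtype.val h))
  surj i z := by
    obtain ⟨x, rfl⟩ := S.surj i z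
    obtain ⟨w, hw⟩ := hg i (g.f.f i x)
    refine ⟨⟨x - S.f.f.f i w, ?_⟩, ?_⟩
    · rw [LinearMap.mem_ker, map_sub]
      change g.f.f i x - g.f.f i (S.f.f.f i w) = 0
      rw [← hw]
      exact sub_self _
    · change S.g.f.f i (x - S.f.f.f i w) = _
      rw [map_sub]
      have h1 : S.g.f.f i (S.f.f.f i w) = 0 := (S.exact i _).2 ⟨w, rfl⟩
      rw [h1, sub_zero]
  exact i x := by
    change S.g.f.f i x.1 = 0 ↔ _
    constructor
    · intro h
      obtain ⟨y, hy⟩ := (S.exact i x.1).1 h
      refine ⟨⟨y, ?_⟩, Subtype.ext hy⟩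
      rw [LinearMap.mem_ker]
      change g.f.f i (S.f.f.f i y) = 0
      have h1 : S.f.f.f i y = x.1 := hy
      rw [h1]
      exact x.2
    · rintro ⟨y, hy⟩
      have h1 : S.f.f.f i y.1 = x.1 := congrArg Subtype.val hy
      rw [← h1]
      exact (S.exact i _).2 ⟨y.1, rfl⟩

/-- **A step of the filtration.** -/
theorem Flt.exists_sub {P : Set ℕ} {q : ℕ → ℕ} {l : ι} {a : ℤ} {L₂ : List (ι × ℤ)}
    (L₁ : List (ι × ℤ)) {M : OM k O deg} (h : Flt B M (L₁ ++ (l, a) :: L₂)) :
    ∃ (F : OM k O deg) (inc : Hom F M) (θ : Hom F ((B l).shift a)),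
      (∀ i, Function.Surjective (θ.f.f i)) ∧
      (∀ (R : GM k) (t : ℤ), (∀ c ∈ L₁, KK P q R ((B c.1).shift c.2).M t) →
        ∀ φ : Fn F.M R t, (∀ m, Hol P q m φ) →
        ∃ ψ : Fn M.M R t, (∀ m, Hol P q m ψ) ∧ Fn.pull inc.f ψ = φ) ∧
      ∀ g : Hom M ((B l).shift a), (∀ i (x : F.M.A i), g.ap (inc.ap x) = θ.ap x) →
        Flt B (ker g) (L₁ ++ L₂) := by
  induction L₁ generalizing M with
  | nil =>
    cases h with
    | cons S h =>
      rename_i M'
      refine ⟨M, Hom.id M, S.g, S.surj, fun R t _ φ hφ => ⟨φ, hφ, rfl⟩, fun g hg => ?_⟩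
      rw [Hom.ext' hg]
      exact h.ofIso S.isoKer
  | cons c L₁ ih =>
    cases h with
    | cons S h =>
      rename_i M' l' a'
      obtain ⟨F, inc, θ, h1, h2, h3⟩ := ih h
      refine ⟨F, inc.comp S.f, θ, h1, fun R t hc φ hφ => ?_, fun g hg => ?_⟩
      · obtain ⟨ψ, h4, h5⟩ := h2 R t (fun c hc' => hc c (List.mem_cons_of_mem _ hc')) φ hφ
        obtain ⟨ω, h6, h7⟩ := S.toSes.lift_all (hc _ List.mem_cons_self) le_rfl h4
        refine ⟨ω, h6, ?_⟩
        rw [← h5, ← h7]
        rfl
      · refine .cons (S.kerSes g fun i z => ?_) (h3 (S.f.comp g) fun i x => hg i x)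
        obtain ⟨w, rfl⟩ := h1 i z
        exact ⟨inc.ap w, hg i w⟩

end OM

end Vale.Agent.P221
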