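import Vale.Agent.P221.H924.Inp
import Vale.Agent.P221.T.H509.FGT

/-!
# P221 (helper509): `IsFG` of the statement layer gives finite generation over `ℤ_p[v_1, …, v_n]`
-/

open CategoryTheory MonoidalCategory MonObj Limits Pretriangulated
open MvPolynomial (rename)
open Vale.Agent.P251.T Vale.Agent.P251.M Vale.Agent.P251.S Vale.Agent.P251.St Vale.Agent.P257.St

set_option linter.unusedSectionVars false

noncomputable section

namespace Vale.Agent.P221.H509

open Vale.Agent.P221.T (BPS sV HK PiM.gr PiM)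

variable {T : SHCat} {S : Susp T} {p : ℕ} [hp : Fact p.Prime] {n : ℕ} {R : RingSp T}
  {φ : GHom S p R} {X : T.C} {a : SHCat.Hom (SHCat.ten R.obj X) X}

/-- the classes of `b` are the classes `hazV φ`, up to isomorphisms of spheres -/
def Matches {P W : T.C} (b : BPS p R.obj P W) (φ : GHom S p R) : Prop :=
  ∀ i : ℕ, ∃ ε : (𝟙_ T.C)⟦sV p (i + 1)⟧ ≅ S.obj (Cn (p ^ (i + 1) - 1)),
    b.v i = ε.hom ≫ hazV φ (i + 1)

theorem fg_of_isFG (ha : P221.St.IsAct a) (hX : H395.PComplete p X) {P W : T.C}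
    (b : BPS p R.obj P W) (hb : Matches b φ) (hfg : P221.St.IsFG φ n a) :
    letI := b.mdl (H924.modOf ha) hX
    ∃ (r : ℕ) (e : Fin r → ℤ) (y : Fin r → PiM X), (∀ i, y i ∈ PiM.gr X (e i)) ∧
      ∀ k, ∀ z ∈ PiM.gr X k, ∃ f : Fin r → MvPolynomial (Fin n) ℤ_[p],
        (∀ i, HK p (k - e i) (rename (fun i : Fin n => (i : ℕ)) (f i))) ∧
          z = ∑ i, rename (fun i : Fin n => (i : ℕ)) (f i) • y i := by
  obtain ⟨Y, hY, h⟩ := hfg
  have := hY.fintype
  let g : Fin (Fintype.card Y) ≃ Y := (Fintype.equivFin Y).symm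
  refine b.fg_of_QQ (H924.modOf ha) hX (fun i => (g i).1.1) (fun i => (g i).1.2) fun k z => ?_
  have key : ∀ (k : ℤ) (z : SHCat.Hom (sphere T k) X), P221.St.Span φ n a Y k z →
      b.QQ (H924.modOf ha) hX (fun i => (g i).1.1) (fun i => (g i).1.2) n k z := by
    intro k z hz
    induction hz with
    | @base k y hy =>
      obtain ⟨i, hi⟩ := g.surjective ⟨⟨k, y⟩, hy⟩
      have h1 : (g i).1 = ⟨k, y⟩ := congrArg Subtype.val hi
      have h2 := BPS.QQ.base (n := n) b (M := H924.modOf ha) (hY := hX) (e := fun i => (g i).1.1)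
        (y := fun i => (g i).1.2) i
      have h3 : ∀ s : (Σ k : ℤ, SHCat.Hom (sphere T k) X), s = ⟨k, y⟩ →
          b.QQ (H924.modOf ha) hX (fun i => (g i).1.1) (fun i => (g i).1.2) n s.1 s.2 →
          b.QQ (H924.modOf ha) hX (fun i => (g i).1.1) (fun i => (g i).1.2) n k y := by
        rintro _ rfl h
        exact h
      exact h3 _ h1 h2
    | zero k => exact BPS.QQ.zero b _ _ _ _ k
    | sub _ _ ih1 ih2 =>
      rw [sub_eq_add_neg]
      exact BPS.QQ.add b ih1 (BPS.QQ.neg b ih2)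
    | @mul j k l y e h1 h2 he _ ih =>
      obtain ⟨j, rfl⟩ : ∃ j', j = j' + 1 := ⟨j - 1, by omega⟩
      obtain ⟨ε, hε⟩ := hb j
      exact BPS.QQ.tensor b (n := n) ⟨j, by omega⟩ ε hε (asIso e) ih
  obtain ⟨z', hz'⟩ := h k z
  have h1 : z = (z - P251.St.zmul p z') + p • z' := by
    change z = (z - (p : ℤ) • z') + p • z'
    rw [natCast_zsmul, sub_add_cancel]
  rw [h1]
  exact BPS.QQ.add b (key k _ hz') (BPS.QQ.p_smul b _ _ _ _ k z')

end Vale.Agent.P221.H509
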